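import Vale.Agent.P195.Cover

/-!
Lengths of spaces of homomorphisms over an Artin algebra, and the two counting lemmas.
-/

universe u v

namespace Vale.Agent.P195

variable (k : Type v) [CommRing k] [IsArtinianRing k] (R : Type u) [Ring R] [Algebra k R]
  [Module.Finite k R]

/-- The length over `k` of the module of `R`-linear maps, as a natural number. -/
noncomputable def hl (X Y : Type u) [AddCommGroup X] [Module R X] [AddCommGroup Y] [Module R Y]
    [Module k Y] [IsScalarTower k R Y] : ℕ :=
  (Module.length k (X →ₗ[R] Y)).toNat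

variable {k R}
variable {X Y Z W : Type u} [AddCommGroup X] [Module R X] [Module k X] [IsScalarTower k R X]
  [AddCommGroup Y] [Module R Y] [Module k Y] [IsScalarTower k R Y]
  [AddCommGroup Z] [Module R Z] [Module k Z] [IsScalarTower k R Z]
  [AddCommGroup W] [Module R W] [Module k W] [IsScalarTower k R W]

omit [Module k X] [IsScalarTower k R X] in
theorem finite_hom [Module.Finite R X] [Module.Finite R Y] : Module.Finite k (X →ₗ[R] Y) := by
  obtain ⟨n, q, hq⟩ := Module.Finite.exists_fin' R X
  have : Module.Finite k Y := Module.Finite.trans R Y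
  let ev : (X →ₗ[R] Y) →ₗ[k] (Fin n → Y) :=
    LinearMap.pi fun i => LinearMap.applyₗ' k (q (Pi.single i 1))
  refine Module.Finite.of_injective ev fun f g h => ?_
  have h' : f.comp q = g.comp q := LinearMap.pi_ext' fun i => LinearMap.ext_ring (congrFun h i)
  exact LinearMap.ext fun x => by
    obtain ⟨v, rfl⟩ := hq x
    exact LinearMap.congr_fun h' v

theorem length_ne_top (M : Type*) [AddCommGroup M] [Module k M] [Module.Finite k M] :
    Module.length k M ≠ ⊤ :=
  Module.length_ne_top

theorem toNat_add {A B C : Type*} [AddCommGroup A] [Module k A] [AddCommGroup B] [Module k B]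
    [AddCommGroup C] [Module k C] [Module.Finite k B]
    (f : A →ₗ[k] B) (g : B →ₗ[k] C) (hf : Function.Injective f) (hg : Function.Surjective g)
    (H : Function.Exact f g) :
    (Module.length k B).toNat = (Module.length k A).toNat + (Module.length k C).toNat := by
  have : Module.Finite k A := Module.Finite.of_injective f hf
  have : Module.Finite k C := Module.Finite.of_surjective g hg
  rw [Module.length_eq_add_of_exact f g hf hg H,
    ENat.toNat_add (length_ne_top A) (length_ne_top C)]

theorem toNat_prod (A B : Type*) [AddCommGroup A] [Module k A] [AddCommGroup B] [Module k B]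
    [Module.Finite k A] [Module.Finite k B] :
    (Module.length k (A × B)).toNat
      = (Module.length k A).toNat + (Module.length k B).toNat :=
  toNat_add (LinearMap.inl k A B) (LinearMap.snd k A B) LinearMap.inl_injective
    LinearMap.snd_surjective Function.Exact.inl_snd

/-- Composition with a fixed map on the left, as a `k`-linear map. -/
noncomputable def postc (f : Y →ₗ[R] Z) : (X →ₗ[R] Y) →ₗ[k] (X →ₗ[R] Z) where
  toFun g := f.comp g
  map_add' g g' := LinearMap.comp_add g g' f
  map_smul' c g := by
    ext x
    simp [f.map_smul_of_tower]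

/-- Composition with a fixed map on the right, as a `k`-linear map. -/
noncomputable def prec (f : X →ₗ[R] Y) : (Y →ₗ[R] Z) →ₗ[k] (X →ₗ[R] Z) where
  toFun g := g.comp f
  map_add' g g' := LinearMap.add_comp f g' g
  map_smul' c g := LinearMap.smul_comp c g f

theorem smul_rad_eq_zero {Y : Type u} [AddCommGroup Y] [Module R Y]
    (h : ∀ i ∈ Ring.jacobson R, ∀ j ∈ Ring.jacobson R, ∀ y : Y, i • j • y = 0)
    {i : R} (hi : i ∈ Ring.jacobson R) {v : Y} (hv : v ∈ rad R Y) : i • v = 0 := by
  refine Submodule.smul_induction_on hv (fun j hj y _ => h i hi j hj y) fun a b ha hb => ?_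
  rw [smul_add, ha, hb, add_zero]

/-- A map to a module with square-zero radical action maps the radical of a radical to zero. -/
theorem map_eq_zero_of_mem_rad {A B : Type u} [AddCommGroup A] [Module R A] [AddCommGroup B]
    [Module R B] (hB : ∀ i ∈ Ring.jacobson R, ∀ b : B, i • b = 0) (f : A →ₗ[R] B) {v : A}
    (hv : v ∈ rad R A) : f v = 0 := by
  refine Submodule.smul_induction_on hv (fun j hj y _ => ?_) fun a b ha hb => ?_
  · rw [map_smul, hB j hj]
  · rw [map_add, ha, hb, add_zero]

/-- The main count: if every map from the kernel `K` of a small projective presentation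
`K → P → X` extends to `P`, the lengths of the relevant spaces of maps balance. -/
theorem count {K P X Y : Type u} [AddCommGroup K] [Module R K]
    [AddCommGroup P] [Module R P] [Module k P] [IsScalarTower k R P]
    [AddCommGroup X] [Module R X] [Module k X] [IsScalarTower k R X]
    [AddCommGroup Y] [Module R Y] [Module k Y] [IsScalarTower k R Y]
    [Module.Finite R P] [Module.Projective R P] [Module.Finite R X] [Module.Finite R Y]
    (ι : K →ₗ[R] P) (π : P →ₗ[R] X) (hπ : Function.Surjective π) (hex : Function.Exact ι π)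
    (hsmall : LinearMap.ker π ≤ rad R P)
    (hY : ∀ i ∈ Ring.jacobson R, ∀ j ∈ Ring.jacobson R, ∀ y : Y, i • j • y = 0)
    (hext : ∀ f : K →ₗ[R] Y, ∃ F : P →ₗ[R] Y, F.comp ι = f) :
    hl k R X Y + hl k R (rad R P) (rad R Y)
      = hl k R X (rad R Y) + hl k R P (Y ⧸ rad R Y) + hl k R (rad R X) (rad R Y) := by
  have : IsArtinianRing R := IsArtinianRing.of_finite k R
  have : IsNoetherianRing R := isNoetherian_of_tower k inferInstance
  have hYr : ∀ i ∈ Ring.jacobson R, ∀ b : rad R Y, i • b = 0 := fun i hi b =>
    Subtype.ext (smul_rad_eq_zero hY hi b.2)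
  have : Module.Finite k (P →ₗ[R] Y) := finite_hom
  have : Module.Finite k (rad R X →ₗ[R] rad R Y) := finite_hom
  -- the short exact sequence `Hom(P, JY) → Hom(P, Y) → Hom(P, Y/JY)`
  have e₁ : hl k R P Y = hl k R P (rad R Y) + hl k R P (Y ⧸ rad R Y) := by
    refine toNat_add (postc (rad R Y).subtype) (postc (rad R Y).mkQ) ?_ ?_ ?_
    · intro f g h
      exact LinearMap.ext fun x => Subtype.ext (LinearMap.congr_fun h x)
    · intro g
      exact Module.projective_lifting_property _ g (Submodule.mkQ_surjective _)
    · intro f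
      constructor
      · intro h
        refine ⟨f.codRestrict _ fun x => ?_, LinearMap.ext fun x => rfl⟩
        have := LinearMap.congr_fun h x
        simpa [postc, Submodule.Quotient.mk_eq_zero] using this
      · rintro ⟨g, rfl⟩
        ext x
        simp [postc]
  -- `Hom(X, JY) = Hom(P, JY)`
  have hkerJY : ∀ (G : P →ₗ[R] rad R Y) (p : P), π p = 0 → G p = 0 := fun G p hp =>
    map_eq_zero_of_mem_rad hYr G (hsmall hp)
  have e₂ : hl k R X (rad R Y) = hl k R P (rad R Y) := by
    refine congrArg ENat.toNat (LinearEquiv.length_eq (LinearEquiv.ofBijective (prec π) ⟨?_, ?_⟩))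
    · intro f g h
      exact LinearMap.ext fun x => by
        obtain ⟨p, rfl⟩ := hπ x
        exact LinearMap.congr_fun h p
    · intro G
      refine ⟨((LinearMap.ker π).liftQ G fun p hp => hkerJY G p hp).comp
        (π.quotKerEquivOfSurjective hπ).symm.toLinearMap, ?_⟩
      ext p
      have : (π.quotKerEquivOfSurjective hπ).symm (π p) = Submodule.Quotient.mk p :=
        (LinearEquiv.symm_apply_eq _).2 rfl
      simp [prec, this]
      rfl
  -- restriction of `π` to the radicals
  let πJ : rad R P →ₗ[R] rad R X :=
    π.restrict fun p hp => map_rad_le π (Submodule.mem_map_of_mem hp)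
  have hπJ : Function.Surjective πJ := by
    rintro ⟨x, hx⟩
    rw [← map_rad_of_surjective π hπ] at hx
    obtain ⟨p, hp, rfl⟩ := hx
    exact ⟨⟨p, hp⟩, rfl⟩
  let resP : (P →ₗ[R] Y) →ₗ[k] (rad R P →ₗ[R] rad R Y) :=
    { toFun := fun F => F.restrict fun p hp => map_rad_le F (Submodule.mem_map_of_mem hp)
      map_add' := fun F G => rfl
      map_smul' := fun c F => rfl }
  let resX : (X →ₗ[R] Y) →ₗ[k] (rad R X →ₗ[R] rad R Y) :=
    { toFun := fun F => F.restrict fun p hp => map_rad_le F (Submodule.mem_map_of_mem hp)
      map_add' := fun F G => rfl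
      map_smul' := fun c F => rfl }
  let δ : (P →ₗ[R] Y) × (rad R X →ₗ[R] rad R Y) →ₗ[k] (rad R P →ₗ[R] rad R Y) :=
    resP.comp (LinearMap.fst k _ _) - (prec πJ).comp (LinearMap.snd k _ _)
  let Φ : (X →ₗ[R] Y) →ₗ[k] (P →ₗ[R] Y) × (rad R X →ₗ[R] rad R Y) := (prec π).prod resX
  have e₃ : hl k R P Y + hl k R (rad R X) (rad R Y)
      = hl k R X Y + hl k R (rad R P) (rad R Y) := by
    rw [hl, hl, ← toNat_prod]
    refine toNat_add Φ δ ?_ ?_ ?_
    · intro f g h
      have h1 : f.comp π = g.comp π := congrArg Prod.fst h
      exact LinearMap.ext fun x => by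
        obtain ⟨p, rfl⟩ := hπ x
        exact LinearMap.congr_fun h1 p
    · intro g
      have hι : ∀ m, ι m ∈ rad R P := fun m => hsmall (hex.apply_apply_eq_zero m)
      obtain ⟨F, hF⟩ := hext ((rad R Y).subtype.comp (g.comp (ι.codRestrict _ hι)))
      have hz : ∀ p : rad R P, πJ p = 0 → resP F p - g p = 0 := by
        intro p hp
        obtain ⟨m, hm⟩ := (hex (p : P)).1 (congrArg Subtype.val hp)
        have hp' : p = ι.codRestrict _ hι m := Subtype.ext hm.symm
        rw [sub_eq_zero]
        apply Subtype.ext
        rw [hp']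
        exact LinearMap.congr_fun hF m
      let ψ : rad R X →ₗ[R] rad R Y :=
        ((LinearMap.ker πJ).liftQ (resP F - g) fun p hp => hz p hp).comp
          (πJ.quotKerEquivOfSurjective hπJ).symm.toLinearMap
      refine ⟨(F, ψ), ?_⟩
      refine LinearMap.ext fun p => ?_
      have hs : (πJ.quotKerEquivOfSurjective hπJ).symm (πJ p) = Submodule.Quotient.mk p :=
        (LinearEquiv.symm_apply_eq _).2 rfl
      show resP F p - ψ (πJ p) = g p
      simp [ψ, hs]
      show resP F p - (resP F p - g p) = g p
      abel
    · rintro ⟨F, ψ⟩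
      constructor
      · intro h
        have h' : ∀ p : rad R P, resP F p = ψ (πJ p) := fun p =>
          sub_eq_zero.1 (LinearMap.congr_fun h p)
        have hker : LinearMap.ker π ≤ LinearMap.ker F := fun p hp => by
          have h2 : (F p : Y) = (ψ (πJ ⟨p, hsmall hp⟩) : rad R Y) :=
            congrArg Subtype.val (h' ⟨p, hsmall hp⟩)
          have h3 : πJ ⟨p, hsmall hp⟩ = 0 := Subtype.ext hp
          rw [LinearMap.mem_ker, h2, h3, map_zero]
          rfl
        let f : X →ₗ[R] Y := ((LinearMap.ker π).liftQ F hker).comp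
          (π.quotKerEquivOfSurjective hπ).symm.toLinearMap
        have hf : ∀ p, f (π p) = F p := fun p => by
          have : (π.quotKerEquivOfSurjective hπ).symm (π p) = Submodule.Quotient.mk p :=
            (LinearEquiv.symm_apply_eq _).2 rfl
          simp [f, this]
        refine ⟨f, Prod.ext (LinearMap.ext hf) (LinearMap.ext fun x => ?_)⟩
        obtain ⟨p, rfl⟩ := hπJ x
        rw [← h' p]
        exact Subtype.ext (hf p)
      · rintro ⟨f, hf⟩
        rw [← hf]
        exact sub_eq_zero.2 (LinearMap.ext fun p => rfl)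
  omega

/-- The finitely many simple modules, and the class of a semisimple module in terms of them. -/
theorem exists_decomp [IsArtinianRing R] :
    ∃ (L : ℕ) (S : Fin L → Submodule R (R ⧸ Ring.jacobson R)),
      L = (Module.length R (R ⧸ Ring.jacobson R)).toNat ∧
      ∀ (Y : Type u) [AddCommGroup Y] [Module R Y] [Module k Y] [IsScalarTower k R Y]
        [Module.Finite R Y] [IsSemisimpleModule R Y],
        ∃ y : Fin L → ℕ, ∀ (X : Type u) [AddCommGroup X] [Module R X] [Module.Finite R X],
          hl k R X Y = ∑ i, y i * hl k R X (S i) := by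
  have hss : IsSemisimpleModule R (R ⧸ Ring.jacobson R) := semisimple_of_killed _ fun j hj y => by
    obtain ⟨r, rfl⟩ := Submodule.mkQ_surjective _ y
    rw [← map_smul, Submodule.mkQ_apply, Submodule.Quotient.mk_eq_zero]
    exact Ideal.mul_mem_right r _ hj
  obtain ⟨L, S, e, hS⟩ :=
    IsSemisimpleModule.exists_linearEquiv_fin_dfinsupp R (R ⧸ Ring.jacobson R)
  let e' : (R ⧸ Ring.jacobson R) ≃ₗ[R] Π i, S i := e.trans DFinsupp.linearEquivFunOnFintype
  refine ⟨L, S, ?_, ?_⟩
  · rw [e'.length_eq, Module.length_pi_of_fintype]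
    have : ∀ i, Module.length R (S i) = 1 := fun i => by
      have := hS i
      exact Module.length_eq_one R _
    simp
  intro Y _ _ _ _ _ _
  obtain ⟨n, T, eY, hT⟩ := IsSemisimpleModule.exists_linearEquiv_fin_dfinsupp R Y
  let eY' : Y ≃ₗ[R] Π j, T j := eY.trans DFinsupp.linearEquivFunOnFintype
  have hiso : ∀ j, ∃ i, Nonempty (S i ≃ₗ[R] T j) := by
    intro j
    have := hT j
    obtain ⟨t, ht⟩ := @exists_ne _ (IsSimpleModule.nontrivial R (T j)) (0 : T j)
    have hkill : Ring.jacobson R ≤ LinearMap.ker (LinearMap.toSpanSingleton R _ t) :=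
      IsSemisimpleModule.jacobson_le_ker R R R (T j) _
    let φ : (Π i, S i) →ₗ[R] T j :=
      ((Ring.jacobson R).liftQ _ hkill).comp e'.symm.toLinearMap
    have hφ : φ ≠ 0 := fun h0 => by
      apply ht
      have h1 := LinearMap.congr_fun h0 (e' (Submodule.Quotient.mk 1))
      simp only [φ, LinearMap.comp_apply, LinearEquiv.coe_coe, LinearEquiv.symm_apply_apply,
        Submodule.liftQ_apply, LinearMap.toSpanSingleton_apply, one_smul,
        LinearMap.zero_apply] at h1
      exact h1
    obtain ⟨i, hi⟩ : ∃ i, φ.comp (LinearMap.single R _ i) ≠ 0 := by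
      by_contra! hc
      exact hφ (LinearMap.pi_ext' fun i => by rw [hc i, LinearMap.zero_comp])
    have := hS i
    exact ⟨i, ⟨LinearEquiv.ofBijective _ (LinearMap.bijective_of_ne_zero hi)⟩⟩
  choose σ τ using hiso
  refine ⟨fun i => (Finset.univ.filter fun j => σ j = i).card, ?_⟩
  intro X _ _ _
  have : IsNoetherianRing R := isNoetherian_of_tower k inferInstance
  have hsum : hl k R X Y = ∑ j, hl k R X (S (σ j)) := by
    let E : (X →ₗ[R] Y) ≃ₗ[k] Π j, (X →ₗ[R] S (σ j)) :=
      { toFun := fun f j => (τ j).some.symm.toLinearMap.comp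
          ((LinearMap.proj j).comp (eY'.toLinearMap.comp f))
        invFun := fun g => eY'.symm.toLinearMap.comp
          (LinearMap.pi fun j => (τ j).some.toLinearMap.comp (g j))
        map_add' := fun f g => by ext j x; simp
        map_smul' := fun c f => funext fun j => LinearMap.ext fun x =>
          ((τ j).some.symm.toLinearMap.comp
            ((LinearMap.proj j).comp eY'.toLinearMap)).map_smul_of_tower c (f x)
        left_inv := fun f => by ext x; simp
        right_inv := fun g => by ext j x; simp }
    have hfin : ∀ j, Module.Finite k (X →ₗ[R] S (σ j)) := fun j => finite_hom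
    rw [hl, E.length_eq, Module.length_pi_of_fintype,
      ENat.toNat_sum fun j _ => length_ne_top _]
    rfl
  rw [hsum, ← Finset.sum_fiberwise Finset.univ σ]
  refine Finset.sum_congr rfl fun i _ => ?_
  rw [Finset.sum_congr rfl (g := fun _ => hl k R X (S i)) fun j hj => by
    rw [(Finset.mem_filter.1 hj).2]]
  simp

end Vale.Agent.P195
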