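import Mathlib

/-!
Radicals and minimal covers of finitely generated modules over a left Artinian ring.
-/

universe u

namespace Vale.Agent.P195

variable {R : Type u} [Ring R] [IsArtinianRing R]

/-- The radical `J X` of a module. -/
abbrev rad (R : Type u) [Ring R] (X : Type u) [AddCommGroup X] [Module R X] : Submodule R X :=
  Ring.jacobson R • (⊤ : Submodule R X)

theorem semisimple_of_killed (Y : Type u) [AddCommGroup Y] [Module R Y]
    (h : ∀ j ∈ Ring.jacobson R, ∀ y : Y, j • y = 0) : IsSemisimpleModule R Y := by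
  have hM : Module.IsTorsionBySet R Y (Ring.jacobson R : Set R) := fun y j => h j.1 j.2 y
  let := hM.module
  exact hM.isSemisimpleModule_iff.1 inferInstance

theorem jacobson_le_rad (P : Type u) [AddCommGroup P] [Module R P] :
    Module.jacobson R P ≤ rad R P := by
  have : IsSemisimpleModule R (P ⧸ rad R P) := by
    refine semisimple_of_killed _ fun j hj y => ?_
    obtain ⟨p, rfl⟩ := Submodule.mkQ_surjective _ y
    rw [← map_smul, Submodule.mkQ_apply, Submodule.Quotient.mk_eq_zero]
    exact Submodule.smul_mem_smul hj trivial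
  exact Module.jacobson_le_of_eq_bot (IsSemisimpleModule.jacobson_eq_bot R _)

omit [IsArtinianRing R] in
theorem map_rad_of_surjective {P X : Type u} [AddCommGroup P] [Module R P] [AddCommGroup X]
    [Module R X] (π : P →ₗ[R] X) (hπ : Function.Surjective π) :
    (rad R P).map π = rad R X := by
  rw [Submodule.map_smul'', Submodule.map_top, LinearMap.range_eq_top.2 hπ]

omit [IsArtinianRing R] in
theorem map_rad_le {P X : Type u} [AddCommGroup P] [Module R P] [AddCommGroup X]
    [Module R X] (f : P →ₗ[R] X) : (rad R P).map f ≤ rad R X := by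
  rw [Submodule.map_smul'']
  exact Submodule.smul_mono le_rfl le_top

omit [IsArtinianRing R] in
theorem rad_lt_top (X : Type u) [AddCommGroup X] [Module R X] [Module.Finite R X] [Nontrivial X] :
    rad R X < ⊤ :=
  Submodule.jacobson_smul_lt_top ⊤

/-- A finitely generated module has a projective cover inside a free module of finite rank. -/
theorem exists_cover (X : Type u) [AddCommGroup X] [Module R X] [Module.Finite R X] :
    ∃ (n : ℕ) (P : Submodule R (Fin n → R)) (π : P →ₗ[R] X),
      Module.Projective R P ∧ Function.Surjective π ∧ LinearMap.ker π ≤ rad R P := by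
  obtain ⟨n, q, hq⟩ := Module.Finite.exists_fin' R X
  let 𝒮 : Set (Submodule R (Fin n → R)) :=
    {P | Module.Projective R P ∧ ∃ π : P →ₗ[R] X, Function.Surjective π}
  have h𝒮 : 𝒮.Nonempty := ⟨⊤, Module.Projective.of_equiv Submodule.topEquiv.symm,
    q.comp Submodule.topEquiv.toLinearMap, hq.comp Submodule.topEquiv.surjective⟩
  obtain ⟨P, ⟨hP, π, hπ⟩, hmin⟩ := wellFounded_lt.has_min 𝒮 h𝒮
  refine ⟨n, P, π, hP, hπ, ?_⟩
  by_contra hker
  have hker' : ¬ LinearMap.ker π ≤ Module.jacobson R P := fun h => hker (h.trans (jacobson_le_rad P))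
  rw [Module.jacobson, le_sInf_iff] at hker'
  push Not at hker'
  obtain ⟨N, hN, hNker⟩ := hker'
  have hN' : IsCoatom N := hN
  have hsup : N ⊔ LinearMap.ker π = ⊤ := hN'.2 _ (left_lt_sup.2 hNker)
  have hsurj : Function.Surjective (π.comp N.subtype) := by
    intro x
    obtain ⟨p, rfl⟩ := hπ x
    have hp : p ∈ N ⊔ LinearMap.ker π := hsup ▸ Submodule.mem_top
    obtain ⟨a, ha, b, hb, rfl⟩ := Submodule.mem_sup.1 hp
    refine ⟨⟨a, ha⟩, ?_⟩
    rw [LinearMap.mem_ker] at hb
    simp [hb]
  obtain ⟨g, hg⟩ := Module.projective_lifting_property (π.comp N.subtype) π hsurj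
  let G : Module.End R P := N.subtype.comp g
  have hG : π ∘ₗ G = π := hg
  have hGn : ∀ m : ℕ, π ∘ₗ (G ^ m) = π := by
    intro m
    induction m with
    | zero => rfl
    | succ m ih =>
      rw [pow_succ, Module.End.mul_eq_comp, ← LinearMap.comp_assoc, ih, hG]
  obtain ⟨k, hk⟩ := Filter.eventually_atTop.1 G.eventually_isCompl_ker_pow_range_pow
  have hc := hk (k + 1) (Nat.le_succ k)
  set Q : Submodule R P := LinearMap.range (G ^ (k + 1)) with hQ
  have hQN : Q ≤ N := by
    rintro x ⟨y, rfl⟩
    rw [pow_succ', Module.End.mul_apply]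
    exact (g _).2
  have hQproj : Module.Projective R Q :=
    Module.Projective.of_split Q.subtype (Submodule.projectionOnto Q _ hc.symm)
      (by ext x; simp)
  have hmem : Q.map P.subtype ∈ 𝒮 := by
    let e : Q ≃ₗ[R] Q.map P.subtype := Submodule.equivMapOfInjective _ P.subtype_injective Q
    refine ⟨Module.Projective.of_equiv e, (π.comp Q.subtype).comp e.symm.toLinearMap, ?_⟩
    intro x
    obtain ⟨p, rfl⟩ := hπ x
    have hp : (G ^ (k + 1)) p ∈ Q := ⟨p, rfl⟩
    refine ⟨e ⟨_, hp⟩, ?_⟩
    simp only [LinearMap.comp_apply, LinearEquiv.coe_coe, LinearEquiv.symm_apply_apply,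
      Submodule.subtype_apply]
    exact LinearMap.congr_fun (hGn (k + 1)) p
  refine hmin _ hmem ?_
  have hQtop : Q < ⊤ := lt_of_le_of_lt hQN hN'.1.lt_top
  have := Submodule.map_strictMono_of_injective P.subtype_injective hQtop
  simpa using this

end Vale.Agent.P195
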