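import Mathlib

/-!
Syzygies, additive closures and Igusa-Todorov algebras.
-/

universe u

namespace Vale.Agent.P195

variable {R : Type u} [Ring R]

/-- `IsSyzygy n X K` says that `K` is an `n`-th syzygy of `X`: it is obtained from `X` by taking
`n` times the kernel of a surjection from a finitely generated projective module. -/
def IsSyzygy : ℕ → ModuleCat.{u} R → ModuleCat.{u} R → Prop
  | 0, X, K => Nonempty (K ≃ₗ[R] X)
  | n + 1, X, K => ∃ (Y P : ModuleCat.{u} R) (ι : Y →ₗ[R] P) (π : P →ₗ[R] X),
      Module.Finite R P ∧ Module.Projective R P ∧ Function.Injective ι ∧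
        Function.Surjective π ∧ Function.Exact ι π ∧ IsSyzygy n Y K

/-- `InAdd V X` says that `X` is a direct summand of a finite power of `V`. -/
def InAdd (V X : ModuleCat.{u} R) : Prop :=
  ∃ (X' : ModuleCat.{u} R) (r : ℕ), Nonempty ((X × X') ≃ₗ[R] (Fin r → V))

/-- `HasAddPresentation V K` says that there is a short exact sequence `0 → V₁ → V₀ → K → 0`
with `V₁` and `V₀` direct summands of finite powers of `V`. -/
def HasAddPresentation (V K : ModuleCat.{u} R) : Prop :=
  ∃ (V₁ V₀ : ModuleCat.{u} R) (f : V₁ →ₗ[R] V₀) (g : V₀ →ₗ[R] K),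
    InAdd V V₁ ∧ InAdd V V₀ ∧ Function.Injective f ∧ Function.Surjective g ∧ Function.Exact f g

/-- An Igusa-Todorov algebra: for some `n` and some finitely generated module `V`, every finitely
generated module has an `n`-th syzygy admitting a short exact sequence `0 → V₁ → V₀ → · → 0`
with `V₁` and `V₀` in the additive closure of `V`. -/
def IsIgusaTodorov (R : Type u) [Ring R] : Prop :=
  ∃ (n : ℕ) (V : ModuleCat.{u} R), Module.Finite R V ∧ ∀ X : ModuleCat.{u} R,
    Module.Finite R X → ∃ K, IsSyzygy n X K ∧ HasAddPresentation V K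

end Vale.Agent.P195
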