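import Vale.Agent.P195.Cover
import Vale.Agent.P195.Defs

/-!
A criterion for Artin rings to be Igusa-Todorov, covering radical cube zero rings.
-/

universe u

namespace Vale.Agent.P195

variable {R : Type u} [Ring R]

theorem inAdd_of_retract {V X : ModuleCat.{u} R} (r : ℕ) (i : X →ₗ[R] (Fin r → V))
    (p : (Fin r → V) →ₗ[R] X) (h : ∀ x, p (i x) = x) : InAdd V X :=
  ⟨ModuleCat.of R (LinearMap.ker p), r, ⟨
    { toFun := fun w => i w.1 + w.2.1
      map_add' := fun w w' => by
        show i (w.1 + w'.1) + (w.2.1 + w'.2.1) = (i w.1 + w.2.1) + (i w'.1 + w'.2.1)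
        rw [map_add, add_add_add_comm]
      map_smul' := fun c w => by
        show i (c • w.1) + c • w.2.1 = c • (i w.1 + w.2.1)
        rw [map_smul, smul_add]
      invFun := fun v => (p v, ⟨v - i (p v), by simp [h]⟩)
      left_inv := fun w => by
        have hw : p w.2.1 = 0 := w.2.2
        refine Prod.ext ?_ (Subtype.ext ?_) <;> simp [h, hw]
      right_inv := fun v => by simp }⟩⟩

/-- The map from a power of a cyclic module prescribed on the generators. -/
def piQuotMap (I : Submodule R R) {Y : Type u} [AddCommGroup Y] [Module R Y]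
    (h : ∀ a ∈ I, ∀ y : Y, a • y = 0) {r : ℕ} (y : Fin r → Y) : (Fin r → R ⧸ I) →ₗ[R] Y :=
  ∑ i, (I.liftQ (LinearMap.toSpanSingleton R Y (y i)) fun a ha => h a ha _).comp (LinearMap.proj i)

theorem piQuotMap_mk (I : Submodule R R) {Y : Type u} [AddCommGroup Y] [Module R Y]
    (h : ∀ a ∈ I, ∀ y : Y, a • y = 0) {r : ℕ} (q : (Fin r → R) →ₗ[R] Y) (x : Fin r → R) :
    piQuotMap I h (fun i => q (Pi.single i 1)) (fun i => Submodule.Quotient.mk (x i)) = q x := by
  conv_rhs => rw [pi_eq_sum_univ' x, map_sum]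
  simp only [piQuotMap, LinearMap.sum_apply, LinearMap.comp_apply, LinearMap.proj_apply, map_smul]
  exact Finset.sum_congr rfl fun i _ => rfl

theorem quotient_killed (I : Submodule R R) [Ideal.IsTwoSided I] {r : ℕ} :
    ∀ a ∈ I, ∀ v : Fin r → R ⧸ I, a • v = 0 := by
  intro a ha v
  funext i
  obtain ⟨x, hx⟩ := Submodule.mkQ_surjective I (v i)
  rw [Pi.smul_apply, ← hx, ← map_smul, Submodule.mkQ_apply, Pi.zero_apply,
    Submodule.Quotient.mk_eq_zero]
  exact Ideal.IsTwoSided.mul_mem_of_left x ha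

/-- A finitely generated module killed by the radical is a summand of a power of `R ⧸ J`. -/
theorem exists_retract_semisimple [IsArtinianRing R] (Y : Type u) [AddCommGroup Y] [Module R Y]
    [Module.Finite R Y] (h : ∀ a ∈ Ring.jacobson R, ∀ y : Y, a • y = 0) :
    ∃ (r : ℕ) (i : Y →ₗ[R] (Fin r → R ⧸ Ring.jacobson R))
      (p : (Fin r → R ⧸ Ring.jacobson R) →ₗ[R] Y), ∀ y, p (i y) = y := by
  obtain ⟨r, q, hq⟩ := Module.Finite.exists_fin' R Y
  have hsurj : Function.Surjective (piQuotMap _ h (fun i => q (Pi.single i 1))) := fun y => by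
    obtain ⟨x, rfl⟩ := hq y
    exact ⟨_, piQuotMap_mk _ h q x⟩
  have : IsSemisimpleModule R (Fin r → R ⧸ Ring.jacobson R) :=
    semisimple_of_killed _ fun j hj v => quotient_killed _ j hj v
  obtain ⟨c, hc⟩ := IsSemisimpleModule.lifting_property _ hsurj LinearMap.id
  exact ⟨r, c, _, fun y => LinearMap.congr_fun hc y⟩

theorem InAdd.retraction {V X : ModuleCat.{u} R} (h : InAdd V X) :
    ∃ (r : ℕ) (i : X →ₗ[R] (Fin r → V)) (p : (Fin r → V) →ₗ[R] X), ∀ x, p (i x) = x := by
  obtain ⟨X', r, ⟨e⟩⟩ := h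
  exact ⟨r, e.toLinearMap.comp (LinearMap.inl R X X'),
    (LinearMap.fst R X X').comp e.symm.toLinearMap, fun x => by simp⟩

theorem InAdd.of_retract {V Y : ModuleCat.{u} R} (hY : InAdd V Y) {X : Type u} [AddCommGroup X]
    [Module R X] (i : X →ₗ[R] Y) (p : Y →ₗ[R] X) (h : ∀ x, p (i x) = x) :
    InAdd V (ModuleCat.of R X) := by
  obtain ⟨r, i', p', h'⟩ := hY.retraction
  exact inAdd_of_retract r (i'.comp i) (p.comp p') fun x => (congrArg p (h' _)).trans (h x)

theorem InAdd.prod {V : ModuleCat.{u} R} {X Y : Type u} [AddCommGroup X] [Module R X]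
    [AddCommGroup Y] [Module R Y] (hX : InAdd V (ModuleCat.of R X))
    (hY : InAdd V (ModuleCat.of R Y)) : InAdd V (ModuleCat.of R (X × Y)) := by
  obtain ⟨r, i, p, h⟩ := hX.retraction
  obtain ⟨s, j, q, h'⟩ := hY.retraction
  refine inAdd_of_retract (r + s)
    { toFun := fun w => Fin.append (i w.1) (j w.2)
      map_add' := fun w w' => funext fun k =>
        Fin.addCases (fun a => by simp) (fun a => by simp) k
      map_smul' := fun c w => funext fun k =>
        Fin.addCases (fun a => by simp) (fun a => by simp) k }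
    ((p.comp (LinearMap.funLeft R V (Fin.castAdd s))).prod
      (q.comp (LinearMap.funLeft R V (Fin.natAdd r)))) fun w => ?_
  refine Prod.ext ((congrArg p (funext fun a => ?_)).trans (h w.1))
    ((congrArg q (funext fun a => ?_)).trans (h' w.2))
  · exact Fin.append_left _ _ a
  · exact Fin.append_right _ _ a

/-- A factor of a power of a summand of `V` is in the additive closure of `V`. -/
theorem InAdd.pi {V W : ModuleCat.{u} R} (i : W →ₗ[R] V) (p : V →ₗ[R] W) (h : ∀ w, p (i w) = w)
    (r : ℕ) : InAdd V (ModuleCat.of R (Fin r → W)) :=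
  inAdd_of_retract r (LinearMap.pi fun a => i.comp (LinearMap.proj a))
    (LinearMap.pi fun a => p.comp (LinearMap.proj a)) fun w => funext fun a => h (w a)

/-- A module killed by `A * B` has a presentation by the summands of the modules `WA`, `R` and the
first syzygy of `WB`. -/
theorem hasAddPresentation_of_ideals [IsArtinianRing R] (A B : Ideal R) (WA WB : ModuleCat.{u} R)
    {s : ℕ} (πB : (Fin s → R) →ₗ[R] WB) (hπB : Function.Surjective πB)
    (hA : ∀ Y : ModuleCat.{u} R, Module.Finite R Y → (∀ a ∈ A, ∀ y : Y, a • y = 0) → InAdd WA Y)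
    (hB : ∀ Y : ModuleCat.{u} R, Module.Finite R Y → (∀ b ∈ B, ∀ y : Y, b • y = 0) → InAdd WB Y)
    (Y : Type u) [AddCommGroup Y] [Module R Y] [Module.Finite R Y]
    (hkill : ∀ a ∈ A, ∀ b ∈ B, ∀ y : Y, a • b • y = 0) :
    HasAddPresentation (ModuleCat.of R (WA × (LinearMap.ker πB × R))) (ModuleCat.of R Y) := by
  let V : ModuleCat.{u} R := ModuleCat.of R (WA × (LinearMap.ker πB × R))
  let L : Submodule R (Y) := B • ⊤
  have hL : InAdd WA (ModuleCat.of R L) := hA _ (inferInstanceAs (Module.Finite R L))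
    fun a ha y => Subtype.ext (Submodule.smul_induction_on (p := fun z => a • z = 0) y.2
      (fun b hb z _ => hkill a ha b hb z) fun z w hz hw => by rw [smul_add, hz, hw, add_zero])
  obtain ⟨t, q, hq⟩ := Module.Finite.exists_fin' R (Y ⧸ L)
  obtain ⟨m, i, p, hip⟩ := (hB (ModuleCat.of R (Y ⧸ L))
    (inferInstanceAs (Module.Finite R (Y ⧸ L))) (fun b hb y => by
      obtain ⟨z, rfl⟩ := Submodule.mkQ_surjective L y
      rw [← map_smul, Submodule.mkQ_apply, Submodule.Quotient.mk_eq_zero]
      exact Submodule.smul_mem_smul hb trivial)).retraction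
  let πm : (Fin m → Fin s → R) →ₗ[R] (Fin m → WB) := LinearMap.pi fun a => πB.comp (LinearMap.proj a)
  have hπm : Function.Surjective πm := fun v => by
    choose v' hv' using fun a => hπB (v a)
    exact ⟨v', funext hv'⟩
  obtain ⟨σ, hσ⟩ := Module.projective_lifting_property πm (i.comp q) hπm
  obtain ⟨τ, hτ⟩ := Module.projective_lifting_property q (p.comp πm) hq
  have hστ : ∀ v, q (τ (σ v)) = q v := fun v =>
    (LinearMap.congr_fun hτ (σ v)).trans ((congrArg p (LinearMap.congr_fun hσ v)).trans (hip _))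
  obtain ⟨l, hl⟩ := Module.projective_lifting_property L.mkQ q L.mkQ_surjective
  have hlm : ∀ v : LinearMap.ker q, -l v ∈ L := fun v => by
    have h1 : L.mkQ (l v) = 0 := (LinearMap.congr_fun hl v.1).trans v.2
    exact neg_mem ((Submodule.Quotient.mk_eq_zero L).1 h1)
  let f : LinearMap.ker q →ₗ[R] (L × (Fin t → R)) :=
    ((-l).comp (LinearMap.ker q).subtype |>.codRestrict L hlm).prod (LinearMap.ker q).subtype
  let g : (L × (Fin t → R)) →ₗ[R] Y := L.subtype.coprod l
  have hA' : InAdd V (ModuleCat.of R L) := by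
    obtain ⟨r, i', p', h'⟩ := hL.retraction
    exact (InAdd.pi (V := V) (W := WA) (LinearMap.inl R _ _) (LinearMap.fst R _ _) (fun w => rfl)
      r).of_retract i' p' h'
  have hR' : ∀ r, InAdd V (ModuleCat.of R (Fin r → R)) := fun r =>
    InAdd.pi (V := V) (W := ModuleCat.of R R) ((LinearMap.inr R _ _).comp (LinearMap.inr R _ _))
      ((LinearMap.snd R _ _).comp (LinearMap.snd R _ _)) (fun w => rfl) r
  have hK' : InAdd V (ModuleCat.of R (Fin m → LinearMap.ker πB)) :=
    InAdd.pi (V := V) (W := ModuleCat.of R (LinearMap.ker πB))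
      ((LinearMap.inr R _ _).comp (LinearMap.inl R _ _))
      ((LinearMap.fst R _ _).comp (LinearMap.snd R _ _)) (fun w => rfl) m
  have hker : ∀ (v : LinearMap.ker q) a, σ v a ∈ LinearMap.ker πB := fun v a => by
    have h1 := congrFun (LinearMap.congr_fun hσ v.1) a
    rw [LinearMap.comp_apply, LinearMap.comp_apply, v.2, map_zero] at h1
    exact h1
  have hback : ∀ w : (Fin m → LinearMap.ker πB) × (Fin t → R),
      τ (fun a => (w.1 a).1) + (w.2 - τ (σ w.2)) ∈ LinearMap.ker q := fun w => by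
    have h1 : πm (fun a => (w.1 a).1) = 0 := funext fun a => (w.1 a).2
    have h2 : q (τ (fun a => (w.1 a).1)) = 0 :=
      (LinearMap.congr_fun hτ _).trans ((congrArg p h1).trans (map_zero p))
    rw [LinearMap.mem_ker, map_add, map_sub, hστ, h2, sub_self, add_zero]
  refine ⟨ModuleCat.of R (LinearMap.ker q), ModuleCat.of R (L × (Fin t → R)), f, g, ?_,
    hA'.prod (hR' t), fun v w h => Subtype.ext (congrArg Prod.snd h), ?_, ?_⟩
  · refine (hK'.prod (hR' t)).of_retract
      ((LinearMap.pi fun a => (((LinearMap.proj a).comp σ).comp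
          (LinearMap.ker q).subtype).codRestrict _ fun v => hker v a).prod
        (LinearMap.ker q).subtype)
      (((τ.comp (LinearMap.pi fun a => (LinearMap.ker πB).subtype.comp (LinearMap.proj a))).coprod
        (LinearMap.id - τ.comp σ)).codRestrict _ fun w => by rw [LinearMap.coprod_apply]; exact hback w) fun v => Subtype.ext ?_
    show τ (σ v) + (v.1 - τ (σ v)) = v.1
    abel
  · intro y
    obtain ⟨v, hv⟩ := hq (L.mkQ y)
    have h1 : L.mkQ (l v) = L.mkQ y := (LinearMap.congr_fun hl v).trans hv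
    exact ⟨(⟨y - l v, (Submodule.Quotient.eq L).1 h1.symm⟩, v), sub_add_cancel y _⟩
  · intro w
    constructor
    · intro hw
      have h1 : (w.1 : Y) + l w.2 = 0 := hw
      have h2 : q w.2 = 0 := by
        rw [← LinearMap.congr_fun hl w.2]
        show L.mkQ (l w.2) = 0
        rw [Submodule.mkQ_apply, Submodule.Quotient.mk_eq_zero, eq_neg_of_add_eq_zero_right h1]
        exact neg_mem w.1.2
      exact ⟨⟨w.2, h2⟩, Prod.ext (Subtype.ext (eq_neg_of_add_eq_zero_left h1).symm) rfl⟩
    · rintro ⟨v, rfl⟩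
      exact neg_add_cancel (l v.1)

/-- If `A * B * J = 0` and both `R ⧸ A` and `R ⧸ B` have only finitely many indecomposable
modules, then `R` is Igusa-Todorov. -/
theorem isIgusaTodorov_of_ideals [IsArtinianRing R] (A B : Ideal R)
    (hzero : ∀ a ∈ A, ∀ b ∈ B, ∀ c ∈ Ring.jacobson R, a * b * c = 0)
    (WA WB : ModuleCat.{u} R) (hWA : Module.Finite R WA) (hWB : Module.Finite R WB)
    (hA : ∀ Y : ModuleCat.{u} R, Module.Finite R Y → (∀ a ∈ A, ∀ y : Y, a • y = 0) → InAdd WA Y)
    (hB : ∀ Y : ModuleCat.{u} R, Module.Finite R Y → (∀ b ∈ B, ∀ y : Y, b • y = 0) → InAdd WB Y) :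
    IsIgusaTodorov R := by
  obtain ⟨s, πB, hπB⟩ := Module.Finite.exists_fin' R WB
  let V : ModuleCat.{u} R := ModuleCat.of R (WA × (LinearMap.ker πB × R))
  refine ⟨1, V, inferInstanceAs (Module.Finite R (WA × (LinearMap.ker πB × R))), fun X hX => ?_⟩
  obtain ⟨n₀, P₀, π₀, hP₀, hπ₀, hker₀⟩ := exists_cover (R := R) X
  refine ⟨ModuleCat.of R (LinearMap.ker π₀), ⟨ModuleCat.of R (LinearMap.ker π₀),
    ModuleCat.of R P₀, (LinearMap.ker π₀).subtype, π₀, inferInstanceAs (Module.Finite R P₀),
    hP₀, Submodule.subtype_injective _, hπ₀, LinearMap.exact_subtype_ker_map π₀,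
    ⟨LinearEquiv.refl R _⟩⟩, ?_⟩
  have hkill : ∀ a ∈ A, ∀ b ∈ B, ∀ y : LinearMap.ker π₀, a • b • y = 0 := by
    intro a ha b hb y
    refine Subtype.ext (Submodule.smul_induction_on (p := fun z => a • b • z = 0) (hker₀ y.2) ?_ ?_)
    · intro c hc z _
      rw [← mul_smul b, ← mul_smul, ← mul_assoc, hzero a ha b hb c hc, zero_smul]
    · intro z w hz hw
      rw [smul_add, smul_add, hz, hw, add_zero]
  exact hasAddPresentation_of_ideals A B WA WB πB hπB hA hB _ hkill

theorem isIgusaTodorov_of_cubeZero [IsArtinianRing R]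
    (hrad : ∀ a ∈ Ring.jacobson R, ∀ b ∈ Ring.jacobson R, ∀ c ∈ Ring.jacobson R, a * b * c = 0) :
    IsIgusaTodorov R := by
  have hW : ∀ Y : ModuleCat.{u} R, Module.Finite R Y →
      (∀ a ∈ Ring.jacobson R, ∀ y : Y, a • y = 0) →
      InAdd (ModuleCat.of R (R ⧸ Ring.jacobson R)) Y := fun Y _ h => by
    obtain ⟨r, i, p, hp⟩ := exists_retract_semisimple Y h
    exact inAdd_of_retract r i p hp
  exact isIgusaTodorov_of_ideals _ _ hrad _ _ (inferInstanceAs (Module.Finite R (R ⧸ Ring.jacobson R)))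
    (inferInstanceAs (Module.Finite R (R ⧸ Ring.jacobson R))) hW hW

end Vale.Agent.P195
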