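import Mathlib

/-!
Vanishing of positive extension groups under dimension shifting.
-/

universe u

open CategoryTheory CategoryTheory.Abelian

namespace Vale.Agent.P195

variable (R : Type u) [Ring R]

/-- The group `Ext^i_R(X,Y)` vanishes. -/
def EV (X Y : Type u) [AddCommGroup X] [Module R X] [AddCommGroup Y] [Module R Y] (i : ℕ) : Prop :=
  Subsingleton (Ext (ModuleCat.of R X) (ModuleCat.of R Y) i)

variable {R}
variable {K P X Y Z : Type u} [AddCommGroup K] [Module R K] [AddCommGroup P] [Module R P]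
  [AddCommGroup X] [Module R X] [AddCommGroup Y] [Module R Y] [AddCommGroup Z] [Module R Z]
variable {ι : K →ₗ[R] P} {π : P →ₗ[R] X}
variable (hι : Function.Injective ι) (hπ : Function.Surjective π) (hex : Function.Exact ι π)

include hι hπ hex

theorem ses :
    (ModuleCat.shortComplexOfCompEqZero ι π hex.linearMap_comp_eq_zero).ShortExact :=
  ModuleCat.shortComplex_shortExact _ hex hι hπ

theorem ev_shift [Module.Projective R P] (i : ℕ) (h : EV R X Y (i + 2)) : EV R K Y (i + 1) := by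
  refine subsingleton_of_forall_eq 0 fun x => ?_
  have hP : Projective (ModuleCat.of R P) := (IsProjective.iff_projective P).1 inferInstance
  obtain ⟨x₂, hx₂⟩ := Ext.contravariant_sequence_exact₁ (ses hι hπ hex) (ModuleCat.of R Y) x
    (n₁ := i + 2) (by omega) (h.elim _ _)
  have : Projective (ModuleCat.shortComplexOfCompEqZero ι π hex.linearMap_comp_eq_zero).X₂ := hP
  rw [← hx₂, Ext.eq_zero_of_projective x₂, Ext.comp_zero]

theorem ev_cov (i : ℕ) (h₁ : EV R Z X i) (h₂ : EV R Z P (i + 1)) : EV R Z K (i + 1) := by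
  refine subsingleton_of_forall_eq 0 fun x => ?_
  obtain ⟨x₃, hx₃⟩ := Ext.covariant_sequence_exact₁ (ModuleCat.of R Z) (ses hι hπ hex) x
    (h₂.elim _ _) (n₀ := i) rfl
  have hx : x₃ = 0 := h₁.elim _ _
  rw [← hx₃, hx, Ext.zero_comp]

theorem ev_extend (h : EV R X Y 1) (f : K →ₗ[R] Y) : ∃ F : P →ₗ[R] Y, F.comp ι = f := by
  obtain ⟨x₂, hx₂⟩ := Ext.contravariant_sequence_exact₁ (ses hι hπ hex) (ModuleCat.of R Y)
    (Ext.mk₀ (ModuleCat.ofHom f)) (n₁ := 1) rfl (h.elim _ _)
  obtain ⟨F, rfl⟩ := (Ext.mk₀_bijective _ _).2 x₂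
  rw [Ext.mk₀_comp_mk₀] at hx₂
  have h' := (Ext.mk₀_bijective _ _).1 hx₂
  exact ⟨F.hom, congrArg ModuleCat.Hom.hom h'⟩

omit hι hπ hex

theorem ev_of_finite_projective [Module.Finite R P] [Module.Projective R P] (i : ℕ)
    (h : EV R Z R i) : EV R Z P i := by
  obtain ⟨m, q, hq⟩ := Module.Finite.exists_fin' R P
  obtain ⟨s, hs⟩ := Module.projective_lifting_property q LinearMap.id hq
  refine subsingleton_of_forall_eq 0 fun x => ?_
  let Φ : (P →ₗ[R] P) →+ Ext (ModuleCat.of R Z) (ModuleCat.of R P) i :=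
    AddMonoidHom.mk' (fun g => x.comp (Ext.mk₀ (ModuleCat.ofHom g)) (add_zero i)) fun g g' => by
      rw [← Ext.comp_add, ← Ext.mk₀_add]; rfl
  have key : LinearMap.id = ∑ j : Fin m,
      (LinearMap.toSpanSingleton R P (q (Pi.single j 1))).comp ((LinearMap.proj j).comp s) := by
    ext p
    have h1 : q (s p) = p := LinearMap.congr_fun hs p
    have h2 : s p = ∑ j : Fin m, s p j • (Pi.single j (1 : R) : Fin m → R) := by
      ext j; simp [Pi.single_apply]
    conv_lhs => rw [LinearMap.id_apply, ← h1, h2, map_sum]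
    simp [LinearMap.sum_apply]
  have hid : Φ LinearMap.id = x := Ext.comp_mk₀_id x
  rw [← hid, key, map_sum]
  refine Finset.sum_eq_zero fun j _ => ?_
  show x.comp (Ext.mk₀ (ModuleCat.ofHom ((LinearMap.proj j).comp s) ≫
    ModuleCat.ofHom (LinearMap.toSpanSingleton R P (q (Pi.single j 1))))) (add_zero i) = 0
  rw [← Ext.mk₀_comp_mk₀, ← Ext.comp_assoc_of_second_deg_zero]
  have h0 : x.comp (Ext.mk₀ (ModuleCat.ofHom ((LinearMap.proj j).comp s))) (add_zero i) = 0 :=
    h.elim _ _
  rw [h0, Ext.zero_comp]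

end Vale.Agent.P195
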