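import Mathlib

/-!
A weak form of the Krull-Schmidt theorem: every direct summand of a finite power of a module of
finite length is a finite product of members of one finite family of modules.
-/

universe u

namespace Vale.Agent.P195

variable {R : Type u} [Ring R]

/-- A nonzero module with no nontrivial complemented submodule. -/
def Indec (R : Type u) [Ring R] (M : Type u) [AddCommGroup M] [Module R M] : Prop :=
  Nontrivial M ∧ ∀ p q : Submodule R M, IsCompl p q → p = ⊥ ∨ q = ⊥

theorem exists_indec_decomp : ∀ (n : ℕ) (M : Type u) [AddCommGroup M] [Module R M]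
    [IsArtinian R M] [IsNoetherian R M], (Module.length R M).toNat ≤ n →
    ∃ (ι : Type) (_ : Fintype ι) (W : ι → ModuleCat.{u} R),
      (∀ i, Indec R (W i) ∧ IsArtinian R (W i) ∧ IsNoetherian R (W i)) ∧
        Nonempty (M ≃ₗ[R] Π i, W i) := by
  intro n
  induction n using Nat.strong_induction_on with
  | _ n ih =>
    intro M _ _ _ _ hn
    rcases subsingleton_or_nontrivial M with hM | hM
    · exact ⟨Empty, inferInstance, fun i => i.elim, fun i => i.elim,
        ⟨LinearEquiv.ofSubsingleton _ _⟩⟩
    by_cases hind : Indec R M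
    · refine ⟨Unit, inferInstance, fun _ => ModuleCat.of R M,
        fun _ => ⟨hind, inferInstance, inferInstance⟩, ?_⟩
      exact ⟨(LinearEquiv.funUnique Unit R M).symm⟩
    · simp only [Indec, hM, true_and] at hind
      push Not at hind
      obtain ⟨p, q, hpq, hp, hq⟩ := hind
      have key : ∀ a b : Submodule R M, IsCompl a b → b ≠ ⊥ →
          (Module.length R a).toNat < (Module.length R M).toNat := by
        intro a b hab hb
        have ha : a ≠ ⊤ := fun h => hb (by
          rw [h] at hab
          exact disjoint_top.1 hab.disjoint.symm)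
        have h1 := Submodule.length_lt ha
        rw [← ENat.natCast_toNat (Module.length_ne_top (R := R) (M := a)),
          ← ENat.natCast_toNat (Module.length_ne_top (R := R) (M := M)), Nat.cast_lt] at h1
        exact h1
      have hp' := key p q hpq hq
      have hq' := key q p hpq.symm hp
      obtain ⟨ι, _, W, hW, ⟨e⟩⟩ := ih _ (lt_of_lt_of_le hp' hn) p le_rfl
      obtain ⟨κ, _, W', hW', ⟨e'⟩⟩ := ih _ (lt_of_lt_of_le hq' hn) q le_rfl
      refine ⟨ι ⊕ κ, inferInstance, Sum.elim W W', ?_, ?_⟩
      · rintro (i | i)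
        · exact hW i
        · exact hW' i
      · exact ⟨(Submodule.prodEquivOfIsCompl p q hpq).symm.trans ((e.prodCongr e').trans
          { toFun := fun f i => match i with
              | Sum.inl a => f.1 a
              | Sum.inr b => f.2 b
            invFun := fun g => (fun a => g (Sum.inl a), fun b => g (Sum.inr b))
            map_add' := fun f g => funext fun i => by rcases i with a | b <;> rfl
            map_smul' := fun c f => funext fun i => by rcases i with a | b <;> rfl
            left_inv := fun f => rfl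
            right_inv := fun g => funext fun i => by rcases i with a | b <;> rfl })⟩

theorem isUnit_or_isNilpotent {U : Type u} [AddCommGroup U] [Module R U] [IsArtinian R U]
    [IsNoetherian R U] (hU : Indec R U) (f : Module.End R U) : IsUnit f ∨ IsNilpotent f := by
  obtain ⟨m, hm⟩ := Filter.eventually_atTop.1 f.eventually_isCompl_ker_pow_range_pow
  have hc := hm (m + 1) (Nat.le_succ m)
  rcases hU.2 _ _ hc with h | h
  · left
    rw [h] at hc
    have hr : LinearMap.range (f ^ (m + 1)) = ⊤ := (codisjoint_bot.1 hc.codisjoint.symm)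
    have hb : Function.Bijective (f ^ (m + 1)) :=
      ⟨LinearMap.ker_eq_bot.1 h, LinearMap.range_eq_top.1 hr⟩
    exact (isUnit_pow_iff (Nat.succ_ne_zero m)).1 ((Module.End.isUnit_iff _).2 hb)
  · right
    exact ⟨m + 1, LinearMap.range_eq_bot.1 h⟩

theorem exists_isUnit_of_sum {U : Type u} [AddCommGroup U] [Module R U] [IsArtinian R U]
    [IsNoetherian R U] (hU : Indec R U) {ι : Type*} (s : Finset ι) (f : ι → Module.End R U)
    (h : IsUnit (∑ i ∈ s, f i)) : ∃ i ∈ s, IsUnit (f i) := by
  classical
  induction s using Finset.induction_on with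
  | empty =>
    have := hU.1
    simp at h
  | insert a s ha ih =>
    rw [Finset.sum_insert ha] at h
    obtain ⟨u, hu⟩ := h
    rcases isUnit_or_isNilpotent hU ((↑u⁻¹ : Module.End R U) * f a) with h1 | h1
    · refine ⟨a, Finset.mem_insert_self _ _, ?_⟩
      have := u.isUnit.mul h1
      rwa [← mul_assoc, Units.mul_inv, one_mul] at this
    · have h2 : IsUnit (∑ i ∈ s, f i) := by
        have h3 : (↑u : Module.End R U) * (1 - (↑u⁻¹ : Module.End R U) * f a) = ∑ i ∈ s, f i := by
          rw [mul_sub, mul_one, ← mul_assoc, Units.mul_inv, one_mul, hu, add_sub_cancel_left]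
        rw [← h3]
        exact u.isUnit.mul h1.isUnit_one_sub
      obtain ⟨i, hi, hiu⟩ := ih h2
      exact ⟨i, Finset.mem_insert_of_mem hi, hiu⟩

theorem exists_family (V : Type u) [AddCommGroup V] [Module R V] [IsArtinian R V]
    [IsNoetherian R V] :
    ∃ (ι : Type) (_ : Fintype ι) (W : ι → ModuleCat.{u} R), (∀ i, Module.Finite R (W i)) ∧
      ∀ (X : Type u) [AddCommGroup X] [Module R X] (X' : Type u) [AddCommGroup X'] [Module R X']
        (r : ℕ), ((X × X') ≃ₗ[R] (Fin r → V)) →
        ∃ (κ : Type) (_ : Fintype κ) (σ : κ → ι), Nonempty (X ≃ₗ[R] Π j, W (σ j)) := by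
  classical
  obtain ⟨ι, _, W, hW, ⟨e⟩⟩ := exists_indec_decomp (R := R) _ V le_rfl
  refine ⟨ι, inferInstance, W, fun i => by have := (hW i).2.2; infer_instance, ?_⟩
  intro X _ _ X' _ _ r E
  let i₀ : X →ₗ[R] (Fin r → V) := E.toLinearMap.comp (LinearMap.inl R X X')
  let p₀ : (Fin r → V) →ₗ[R] X := (LinearMap.fst R X X').comp E.symm.toLinearMap
  have hp₀ : ∀ x, p₀ (i₀ x) = x := fun x => by simp [p₀, i₀]
  have hi₀ : Function.Injective i₀ := fun x y h => by rw [← hp₀ x, ← hp₀ y, h]
  have : IsArtinian R X := isArtinian_of_injective i₀ hi₀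
  have : IsNoetherian R X := isNoetherian_of_injective i₀ hi₀
  obtain ⟨κ, _, U, hU, ⟨eX⟩⟩ := exists_indec_decomp (R := R) _ X le_rfl
  have hone : ∀ j, ∃ i, Nonempty (U j ≃ₗ[R] W i) := by
    intro j
    obtain ⟨hind, hA, hN⟩ := hU j
    let a : ∀ t : Fin r × ι, (U j →ₗ[R] W t.2) := fun t =>
      (LinearMap.proj t.2).comp (e.toLinearMap.comp ((LinearMap.proj t.1).comp (i₀.comp
        (eX.symm.toLinearMap.comp (LinearMap.single R (fun j => U j) j)))))
    let b : ∀ t : Fin r × ι, (W t.2 →ₗ[R] U j) := fun t =>
      (LinearMap.proj j).comp (eX.toLinearMap.comp (p₀.comp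
        ((LinearMap.single R (fun _ : Fin r => V) t.1).comp
          (e.symm.toLinearMap.comp (LinearMap.single R (fun i => W i) t.2)))))
    have hsum : (∑ t : Fin r × ι, (b t).comp (a t) : Module.End R (U j)) = 1 := by
      ext z
      simp only [LinearMap.sum_apply, LinearMap.comp_apply, a, b, LinearEquiv.coe_coe]
      rw [Fintype.sum_prod_type]
      simp only [LinearMap.coe_proj, Function.eval, LinearMap.coe_single]
      simp only [← Finset.sum_apply, ← map_sum]
      have h2 : ∀ (x : Fin r) (v : V), (∑ i, Pi.single x (e.symm (Pi.single i (e v i))) :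
          Fin r → V) = Pi.single x v := fun x v =>
        (map_sum (LinearMap.single R (fun _ : Fin r => V) x) _ _).symm.trans
          (congrArg (LinearMap.single R (fun _ : Fin r => V) x)
            (by rw [← map_sum, Finset.univ_sum_single, LinearEquiv.symm_apply_apply]))
      simp only [h2, Finset.univ_sum_single, hp₀, LinearEquiv.apply_symm_apply,
        Pi.single_eq_same]
      rfl
    obtain ⟨t, -, ht⟩ := exists_isUnit_of_sum hind Finset.univ _ (hsum ▸ isUnit_one)
    have hb := (Module.End.isUnit_iff _).1 ht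
    have hinj : Function.Injective (a t) := fun z w h => hb.1 (congrArg (b t) h)
    have hc : IsCompl (LinearMap.range (a t)) (LinearMap.ker (b t)) := by
      refine IsCompl.of_eq ?_ ?_
      · rw [eq_bot_iff]
        rintro w ⟨⟨z, rfl⟩, hw⟩
        have : z = 0 := hb.1 ((LinearMap.mem_ker.1 hw).trans (map_zero _).symm)
        rw [Submodule.mem_bot, this, map_zero]
      · rw [eq_top_iff]
        intro w _
        obtain ⟨z, hz⟩ := hb.2 (b t w)
        have hz' : b t (a t z) = b t w := hz
        exact Submodule.mem_sup.2 ⟨a t z, ⟨z, rfl⟩, w - a t z,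
          LinearMap.mem_ker.2 (by rw [map_sub, hz', sub_self]), by abel⟩
    rcases (hW t.2).1.2 _ _ hc with h | h
    · exfalso
      have := hind.1
      obtain ⟨z, hz⟩ := exists_ne (0 : U j)
      have hz0 : a t z = 0 := by
        have : a t z ∈ LinearMap.range (a t) := ⟨z, rfl⟩
        rwa [h, Submodule.mem_bot] at this
      exact hz (hinj (hz0.trans (map_zero _).symm))
    · refine ⟨t.2, ⟨LinearEquiv.ofBijective (a t) ⟨hinj, ?_⟩⟩⟩
      rw [h] at hc
      exact LinearMap.range_eq_top.1 (codisjoint_bot.1 hc.codisjoint)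
  choose σ τ using hone
  exact ⟨κ, inferInstance, σ, ⟨eX.trans (LinearEquiv.piCongrRight fun j => (τ j).some)⟩⟩

end Vale.Agent.P195
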