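import Vale.Agent.P195.Homol
import Vale.Agent.P195.Count

/-!
The Auslander-Reiten conjecture for Artin algebras with radical cube zero.
-/

universe u v

open CategoryTheory CategoryTheory.Abelian

namespace Vale.Agent.P195

variable {R : Type u} [Ring R]

/-- A finitely generated module with a minimal cover whose kernel is projective is projective. -/
theorem projective_of_kernel_projective [IsArtinianRing R] [IsNoetherianRing R]
    {K P X : Type u} [AddCommGroup K] [Module R K] [AddCommGroup P] [Module R P]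
    [AddCommGroup X] [Module R X] [Module.Finite R P] [Module.Projective R P]
    [Module.Finite R K] {ι : K →ₗ[R] P} {π : P →ₗ[R] X} (hι : Function.Injective ι)
    (hπ : Function.Surjective π) (hex : Function.Exact ι π)
    (hsmall : LinearMap.ker π ≤ rad R P) (hK : Module.Projective R K) (h : EV R X R 1) :
    Module.Projective R X := by
  obtain ⟨r, hr⟩ := ev_extend hι hπ hex (ev_of_finite_projective (P := K) 1 h) LinearMap.id
  have htop : rad R K = ⊤ := by
    refine eq_top_iff.2 fun m _ => ?_
    have hm : ι m ∈ rad R P := hsmall (hex.apply_apply_eq_zero m)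
    have := map_rad_le r (Submodule.mem_map_of_mem hm)
    rwa [show r (ι m) = m from LinearMap.congr_fun hr m] at this
  have hsub : Subsingleton K := by
    refine not_nontrivial_iff_subsingleton.1 fun hn => ?_
    exact (rad_lt_top K).ne htop
  have hinj : Function.Injective π := by
    refine LinearMap.ker_eq_bot.1 (eq_bot_iff.2 fun p hp => ?_)
    obtain ⟨m, rfl⟩ := (hex p).1 hp
    rw [Submodule.mem_bot, Subsingleton.elim m 0, map_zero]
  exact Module.Projective.of_equiv (LinearEquiv.ofBijective π ⟨hinj, hπ⟩)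

/-- A matrix with vanishing entries on one side of the diagonal and positive diagonal cannot be
a product through a space of smaller dimension. -/
theorem no_triangular {ι : Type*} [Fintype ι] (N : ℕ) (hN : Fintype.card ι < N)
    (w y : Fin N → ι → ℚ) (h0 : ∀ a b : Fin N, b < a → ∑ i, w a i * y b i = 0)
    (h1 : ∀ a : Fin N, ∑ i, w a i * y a i ≠ 0) : False := by
  have hdep : ¬ LinearIndependent ℚ y := fun hli => by
    have := hli.fintype_card_le_finrank
    rw [Fintype.card_fin, Module.finrank_pi] at this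
    omega
  obtain ⟨c, hc, a₀, ha₀⟩ := Fintype.not_linearIndependent_iff.1 hdep
  obtain ⟨a, ha, hmax⟩ := (Finset.univ.filter fun b => c b ≠ 0).exists_max_image id
    ⟨a₀, by simpa using ha₀⟩
  have hca : c a ≠ 0 := (Finset.mem_filter.1 ha).2
  have key : ∑ b, c b * ∑ i, w a i * y b i = 0 := by
    simp_rw [Finset.mul_sum]
    rw [Finset.sum_comm]
    refine Finset.sum_eq_zero fun i _ => ?_
    have hi : ∑ b, c b * y b i = 0 := by
      have := congrFun hc i
      simpa using this
    calc ∑ b, c b * (w a i * y b i) = w a i * ∑ b, c b * y b i := by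
          rw [Finset.mul_sum]; exact Finset.sum_congr rfl fun b _ => by ring
      _ = 0 := by rw [hi, mul_zero]
  rw [Finset.sum_eq_single a] at key
  · exact h1 a ((mul_eq_zero.1 key).resolve_left hca)
  · intro b _ hb
    rcases lt_or_gt_of_ne hb with hlt | hgt
    · rw [h0 a b hlt, mul_zero]
    · have : c b = 0 := by
        by_contra hcb
        exact absurd (hmax b (Finset.mem_filter.2 ⟨Finset.mem_univ b, hcb⟩)) (not_le.2 hgt)
      rw [this, zero_mul]
  · simp

/-- Syzygies are recorded as submodules of free modules of finite rank. -/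
structure Obj (R : Type u) [Ring R] : Type u where
  /-- The rank of the ambient free module. -/
  rank : ℕ
  /-- The submodule. -/
  carrier : Submodule R (Fin rank → R)

theorem exists_chain [IsArtinianRing R] (M : Type u) [AddCommGroup M] [Module R M]
    [Module.Finite R M] :
    ∃ (x p : ℕ → Obj R) (m : Obj R) (ι₀ : (x 0).2 →ₗ[R] m.2) (π₀ : m.2 →ₗ[R] M)
      (ι : ∀ a, (x (a + 1)).2 →ₗ[R] (p a).2) (π : ∀ a, (p a).2 →ₗ[R] (x a).2),
      (Module.Projective R m.2 ∧ Function.Injective ι₀ ∧ Function.Surjective π₀ ∧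
        Function.Exact ι₀ π₀ ∧ LinearMap.ker π₀ ≤ rad R m.2) ∧
      ∀ a, Module.Projective R (p a).2 ∧ Function.Injective (ι a) ∧ Function.Surjective (π a) ∧
        Function.Exact (ι a) (π a) ∧ LinearMap.ker (π a) ≤ rad R (p a).2 := by
  have step : ∀ (X : Type u) [AddCommGroup X] [Module R X] [Module.Finite R X],
      ∃ (y m : Obj R) (ι : y.2 →ₗ[R] m.2) (π : m.2 →ₗ[R] X),
        Module.Projective R m.2 ∧ Function.Injective ι ∧ Function.Surjective π ∧
          Function.Exact ι π ∧ LinearMap.ker π ≤ rad R m.2 := by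
    intro X _ _ _
    obtain ⟨n, P, π, hP, hπ, hs⟩ := exists_cover (R := R) X
    refine ⟨⟨n, (LinearMap.ker π).map P.subtype⟩, ⟨n, P⟩,
      Submodule.inclusion (Submodule.map_subtype_le P _), π, hP,
      Submodule.inclusion_injective _, hπ, ?_, hs⟩
    intro q
    constructor
    · intro hq
      exact ⟨⟨q.1, Submodule.mem_map.2 ⟨q, hq, rfl⟩⟩, Subtype.ext rfl⟩
    · rintro ⟨⟨v, hv⟩, rfl⟩
      obtain ⟨z, hz, rfl⟩ := Submodule.mem_map.1 hv
      exact hz
  have hfin : ∀ o : Obj R, Module.Finite R o.2 := fun o =>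
    Module.Finite.iff_fg.2 (IsNoetherian.noetherian o.2)
  choose nx np nι nπ hn using fun o : Obj R => @step o.2 _ _ (hfin o)
  obtain ⟨x₀, m, ι₀, π₀, h₀⟩ := step M
  let x : ℕ → Obj R := fun a => Nat.rec x₀ (fun _ o => nx o) a
  exact ⟨x, fun a => np (x a), m, ι₀, π₀, fun a => nι (x a), fun a => nπ (x a), h₀,
    fun a => hn (x a)⟩

/-- The Auslander-Reiten conjecture for Artin algebras with radical cube zero, with explicit
bounds on the degrees in which vanishing is needed. -/
theorem projective_of_ev (k : Type v) [CommRing k] [IsArtinianRing k] (R : Type u) [Ring R]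
    [Algebra k R] [Module.Finite k R]
    (hrad : ∀ a ∈ Ring.jacobson R, ∀ b ∈ Ring.jacobson R, ∀ c ∈ Ring.jacobson R, a * b * c = 0)
    (M : Type u) [AddCommGroup M] [Module R M] [Module.Finite R M]
    (hR : ∀ i, 1 ≤ i → i ≤ 2 * (Module.length R (R ⧸ Ring.jacobson R)).toNat + 2 → EV R M R i)
    (hM : ∀ i, 1 ≤ i → i ≤ 2 * (Module.length R (R ⧸ Ring.jacobson R)).toNat + 1 → EV R M M i) :
    Module.Projective R M := by
  have : IsArtinianRing R := IsArtinianRing.of_finite k R
  have : IsNoetherianRing R := isNoetherian_of_tower k inferInstance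
  obtain ⟨L, S, hL, hdec⟩ := exists_decomp (k := k) (R := R)
  rw [← hL] at hR hM
  obtain ⟨x, p, m, ι₀, π₀, ι, π, ⟨hm, hι₀, hπ₀, hex₀, hs₀⟩, hch⟩ :=
    exists_chain (R := R) M
  have hproj : ∀ a, Module.Projective R (p a).2 := fun a => (hch a).1
  have hfin : ∀ o : Obj R, Module.Finite R o.2 := fun o =>
    Module.Finite.iff_fg.2 (IsNoetherian.noetherian o.2)
  have hι : ∀ a, Function.Injective (ι a) := fun a => (hch a).2.1
  have hπ : ∀ a, Function.Surjective (π a) := fun a => (hch a).2.2.1
  have hex : ∀ a, Function.Exact (ι a) (π a) := fun a => (hch a).2.2.2.1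
  have hs : ∀ a, LinearMap.ker (π a) ≤ rad R (p a).2 := fun a => (hch a).2.2.2.2
  -- every syzygy is killed by the square of the radical
  have hrad' : ∀ (P : Obj R), ∀ i ∈ Ring.jacobson R, ∀ j ∈ Ring.jacobson R, ∀ v ∈ rad R P.2,
      i • j • v = 0 := by
    intro P i hi j hj v hv
    refine Submodule.smul_induction_on hv (fun c hc q _ => ?_) fun a b ha hb => ?_
    · rw [smul_smul, smul_smul, hrad i hi j hj c hc, zero_smul]
    · rw [smul_add, smul_add, ha, hb, add_zero]
  have hsq : ∀ a, ∀ i ∈ Ring.jacobson R, ∀ j ∈ Ring.jacobson R, ∀ v : (x a).2,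
      i • j • v = 0 := by
    intro a i hi j hj v
    rcases a with _ | a
    · apply hι₀
      rw [map_smul, map_smul, map_zero]
      exact hrad' m i hi j hj _ (hs₀ (hex₀.apply_apply_eq_zero v))
    · apply hι a
      rw [map_smul, map_smul, map_zero]
      exact hrad' (p a) i hi j hj _ (hs a ((hex a).apply_apply_eq_zero v))
  -- vanishing along the chain
  have hxR : ∀ a j, 1 ≤ j → j + a ≤ 2 * L + 1 → EV R (x a).2 R j := by
    intro a
    induction a with
    | zero =>
      intro j hj hb
      obtain ⟨j, rfl⟩ := Nat.exists_eq_add_of_le' hj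
      exact ev_shift hι₀ hπ₀ hex₀ j (hR (j + 2) (by omega) (by omega))
    | succ a ih =>
      intro j hj hb
      obtain ⟨j, rfl⟩ := Nat.exists_eq_add_of_le' hj
      exact ev_shift (hι a) (hπ a) (hex a) j (ih (j + 2) (by omega) (by omega))
  have hxx : ∀ a j, 1 ≤ j → j + a ≤ 2 * L + 1 → EV R (x a).2 (x a).2 j := by
    intro a
    induction a with
    | zero =>
      intro j hj hb
      obtain ⟨j, rfl⟩ := Nat.exists_eq_add_of_le' hj
      exact ev_shift hι₀ hπ₀ hex₀ j (ev_cov hι₀ hπ₀ hex₀ (j + 1) (hM _ hj (by omega))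
        (ev_of_finite_projective (j + 2) (hR _ (by omega) (by omega))))
    | succ a ih =>
      intro j hj hb
      obtain ⟨j, rfl⟩ := Nat.exists_eq_add_of_le' hj
      exact ev_shift (hι a) (hπ a) (hex a) j (ev_cov (hι a) (hπ a) (hex a) (j + 1)
        (ih _ hj (by omega))
        (ev_of_finite_projective (j + 2) (hxR a _ (by omega) (by omega))))
  have hcross : ∀ d b j, 1 ≤ j → j + (b + d) ≤ 2 * L + 1 → EV R (x (b + d)).2 (x b).2 j := by
    intro d
    induction d with
    | zero => exact fun b j hj hb => hxx b j hj hb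
    | succ d ih =>
      intro b j hj hb
      obtain ⟨j, rfl⟩ := Nat.exists_eq_add_of_le' hj
      exact ev_shift (hι (b + d)) (hπ (b + d)) (hex (b + d)) j
        (ih b (j + 2) (by omega) (by omega))
  by_contra hMp
  -- no member of the chain is zero
  have hnp : ∀ a, a ≤ 2 * L → ¬ Module.Projective R (x a).2 := by
    intro a
    induction a with
    | zero =>
      exact fun _ h => hMp (projective_of_kernel_projective hι₀ hπ₀ hex₀ hs₀ h
        (hR 1 le_rfl (by omega)))
    | succ a ih =>
      exact fun ha h => ih (by omega) (projective_of_kernel_projective (hι a) (hπ a) (hex a)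
        (hs a) h (hxR a 1 le_rfl (by omega)))
  have hnt : ∀ a, a ≤ 2 * L → Nontrivial (x a).2 := fun a ha => by
    refine not_subsingleton_iff_nontrivial.1 fun h => hnp a ha ?_
    exact Module.Projective.of_split (0 : (x a).2 →ₗ[R] R) 0 (Subsingleton.elim _ _)
  -- the radical and the top of each member
  have hssr : ∀ a, IsSemisimpleModule R (rad R (x a).2) := fun a =>
    semisimple_of_killed _ fun i hi v => Subtype.ext (smul_rad_eq_zero (hsq a) hi v.2)
  have hsst : ∀ a, IsSemisimpleModule R ((x a).2 ⧸ rad R (x a).2) := fun a =>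
    semisimple_of_killed _ fun i hi v => by
      obtain ⟨q, rfl⟩ := Submodule.mkQ_surjective _ v
      rw [← map_smul, Submodule.mkQ_apply, Submodule.Quotient.mk_eq_zero]
      exact Submodule.smul_mem_smul hi trivial
  choose yT hyT using fun a => hdec ((x a).2 ⧸ rad R (x a).2)
  choose yS hyS using fun a => hdec (rad R (x a).2)
  -- the form
  let w : Fin (2 * L + 1) → Fin L ⊕ Fin L → ℚ := fun a =>
    Sum.elim (fun i => (hl k R (p a).2 (S i) : ℚ))
      (fun i => (hl k R (rad R (x a).2) (S i) : ℚ) - (hl k R (rad R (p a).2) (S i) : ℚ))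
  let y : Fin (2 * L + 1) → Fin L ⊕ Fin L → ℚ := fun b =>
    Sum.elim (fun i => (yT b i : ℚ)) (fun i => (yS b i : ℚ))
  have hform : ∀ a b : Fin (2 * L + 1), b ≤ a →
      ∑ i, w a i * y b i = (hl k R (x a).2 (x b).2 : ℚ) - hl k R (x a).2 (rad R (x b).2) := by
    intro a b hab
    obtain ⟨d, hd⟩ := Nat.exists_eq_add_of_le (Fin.le_def.1 hab)
    have hev : EV R (x a).2 (x b).2 1 := by
      have ha := a.2
      rw [hd]
      exact hcross d b 1 le_rfl (by omega)
    have hc := count (k := k) (ι a) (π a) (hπ a) (hex a) (hs a) (hsq b)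
      fun f => ev_extend (hι a) (hπ a) (hex a) hev f
    simp only [hyT b, hyS b] at hc
    have hc' := congrArg (fun n : ℕ => (n : ℚ)) hc
    push_cast at hc'
    rw [Fintype.sum_sum_type]
    simp only [w, y, Sum.elim_inl, Sum.elim_inr, sub_mul, Finset.sum_sub_distrib]
    simp only [hyS b]
    push_cast
    simp only [mul_comm (hl k R _ _ : ℚ)]
    linarith
  refine no_triangular (2 * L + 1) (by simp; omega) w y ?_ ?_
  · intro a b hba
    rw [hform a b hba.le, sub_eq_zero, Nat.cast_inj]
    -- every map between different members lands in the radical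
    obtain ⟨a', ha'⟩ : ∃ a', (a : ℕ) = a' + 1 :=
      ⟨(a : ℕ) - 1, by have := Fin.lt_def.1 hba; omega⟩
    have hland : ∀ (f : (x a).2 →ₗ[R] (x b).2) (v : (x a).2), f v ∈ rad R (x b).2 := by
      rw [ha']
      intro f v
      obtain ⟨d, hd⟩ := Nat.exists_eq_add_of_le (show (b : ℕ) ≤ a' by
        have := Fin.lt_def.1 hba; omega)
      have hev : EV R (x a').2 (x b).2 1 := by
        have ha := a.2
        rw [hd]
        exact hcross d b 1 le_rfl (by omega)
      obtain ⟨F, rfl⟩ := ev_extend (hι a') (hπ a') (hex a') hev f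
      exact map_rad_le F (Submodule.mem_map_of_mem (hs a' ((hex a').apply_apply_eq_zero v)))
    let : AddCommGroup (rad R (x b).2) :=
      Submodule.addCommGroup (M := (x b).2) (rad R (x b).2)
    let φ : ((x a).2 →ₗ[R] rad R (x b).2) →ₗ[k] ((x a).2 →ₗ[R] (x b).2) :=
      postc (k := k) (R := R) (X := (x a).2) (Y := rad R (x b).2) (Z := (x b).2)
        (rad R (x b).2).subtype
    have hφ : Function.Bijective φ :=
      ⟨fun f g h => LinearMap.ext fun v => Subtype.ext (LinearMap.congr_fun h v),
        fun f => ⟨f.codRestrict _ (hland f), LinearMap.ext fun v => rfl⟩⟩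
    exact (congrArg ENat.toNat (LinearEquiv.ofBijective φ hφ).length_eq).symm
  · intro a
    rw [hform a a le_rfl, sub_ne_zero, Ne, Nat.cast_inj]
    have := hnt a (by have := a.2; omega)
    have : Module.Finite k ((x a).2 →ₗ[R] (x a).2) := finite_hom
    let : AddCommGroup (rad R (x a).2) :=
      Submodule.addCommGroup (M := (x a).2) (rad R (x a).2)
    let φ : ((x a).2 →ₗ[R] rad R (x a).2) →ₗ[k] ((x a).2 →ₗ[R] (x a).2) :=
      postc (k := k) (R := R) (X := (x a).2) (Y := rad R (x a).2) (Z := (x a).2)
        (rad R (x a).2).subtype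
    have hφ : Function.Injective φ := fun f g h =>
      LinearMap.ext fun v => Subtype.ext (LinearMap.congr_fun h v)
    have hne : LinearMap.range φ ≠ ⊤ := by
      intro h
      obtain ⟨g, hg⟩ := (h ▸ Submodule.mem_top : LinearMap.id ∈ LinearMap.range φ)
      refine (rad_lt_top (R := R) (x a).2).ne (eq_top_iff.2 fun v _ => ?_)
      have hv : ((g v : (x a).2)) = v := LinearMap.congr_fun hg v
      exact hv ▸ (g v).2
    intro heq
    let : AddCommGroup ((x a).2 →ₗ[R] (x a).2) := LinearMap.addCommGroup
    have : IsArtinian k ((x a).2 →ₗ[R] (x a).2) :=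
      isArtinian_of_fg_of_artinian' (R := k) (M := (x a).2 →ₗ[R] (x a).2)
    have : IsNoetherian k ((x a).2 →ₗ[R] (x a).2) := isNoetherian_of_isNoetherianRing_of_finite k _
    have hlt := Submodule.length_lt (N := LinearMap.range φ) hne
    rw [← (LinearEquiv.ofInjective φ hφ).length_eq] at hlt
    have h1 : Module.Finite k ((x a).2 →ₗ[R] rad R (x a).2) := finite_hom
    rw [← ENat.natCast_toNat (length_ne_top ((x a).2 →ₗ[R] rad R (x a).2)),
      ← ENat.natCast_toNat (length_ne_top ((x a).2 →ₗ[R] (x a).2)), Nat.cast_lt] at hlt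
    exact hlt.ne heq.symm

end Vale.Agent.P195
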