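import Vale.Agent.P195.Window
import Vale.Agent.P195.KrullSchmidt
import Vale.Agent.P195.Main

/-!
No family of modules with the vanishing properties of syzygies of a nonprojective self-orthogonal
module admits short presentations by a fixed finite family of modules.
-/

universe u v

namespace Vale.Agent.P195

variable {k : Type v} [CommRing k] [IsArtinianRing k] {R : Type u} [Ring R] [Algebra k R]
  [Module.Finite k R]

theorem sl_pi {X Y : Type u} [AddCommGroup X] [Module R X] [AddCommGroup Y] [Module R Y]
    [Module k Y] [IsScalarTower k R Y] [Module.Finite R Y]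
    {κ : Type} [Fintype κ] (W : κ → ModuleCat.{u} R) [∀ j, Module.Finite R (W j)]
    (e : X ≃ₗ[R] Π j, W j) :
    sl R k X Y = ∑ j, sl R k (W j) Y := by
  classical
  let G : (X →ₗ[R] Y) →ₗ[k] Π j, ((W j →ₗ[R] Y) ⧸ facSub R k (W j) Y) :=
    LinearMap.pi fun j => (facSub R k (W j) Y).mkQ.comp
      (prec (e.symm.toLinearMap.comp (LinearMap.single R (fun j => W j) j)))
  have hker : LinearMap.ker G = facSub R k X Y := by
    ext f
    constructor
    · intro hf
      have hj : ∀ j, Fac R ((f.comp e.symm.toLinearMap).comp
          (LinearMap.single R (fun j => W j) j)) := fun j =>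
        (Submodule.Quotient.mk_eq_zero (facSub R k (W j) Y)).1 (congrFun hf j)
      have h1 : f = ∑ j, ((f.comp e.symm.toLinearMap).comp
          (LinearMap.single R (fun j => W j) j)).comp
            ((LinearMap.proj j).comp e.toLinearMap) := by
        ext x
        simp only [LinearMap.sum_apply, LinearMap.comp_apply, LinearMap.coe_single,
          LinearMap.coe_proj, Function.eval, LinearEquiv.coe_coe]
        rw [← map_sum, ← map_sum, Finset.univ_sum_single, LinearEquiv.symm_apply_apply]
      show Fac R f
      rw [h1]
      exact fac_sum _ _ fun j _ => (hj j).comp_right _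
    · intro hf
      funext j
      exact (Submodule.Quotient.mk_eq_zero (facSub R k (W j) Y)).2
        (Fac.comp_right (f := f) hf _)
  have hsurj : Function.Surjective G := by
    intro g
    choose f hf using fun j => Submodule.mkQ_surjective (facSub R k (W j) Y) (g j)
    refine ⟨∑ j, (f j).comp ((LinearMap.proj j).comp e.toLinearMap), funext fun i => ?_⟩
    rw [← hf i]
    refine congrArg (facSub R k (W i) Y).mkQ (LinearMap.ext fun w => ?_)
    show (∑ j, (f j).comp ((LinearMap.proj j).comp e.toLinearMap))
      (e.symm (Pi.single i w)) = f i w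
    simp only [LinearMap.sum_apply, LinearMap.comp_apply, LinearMap.coe_proj, Function.eval,
      LinearEquiv.coe_coe, LinearEquiv.apply_symm_apply]
    rw [Finset.sum_eq_single i (fun j _ hj => by rw [Pi.single_eq_of_ne hj, map_zero]) (by simp),
      Pi.single_eq_same]
  have hfin : ∀ j, Module.Finite k (W j →ₗ[R] Y) := fun j => finite_hom
  have hlen : Module.length k ((X →ₗ[R] Y) ⧸ facSub R k X Y)
      = ∑ j, Module.length k ((W j →ₗ[R] Y) ⧸ facSub R k (W j) Y) := by
    rw [← Module.length_pi_of_fintype, ← hker]
    exact (G.quotKerEquivOfSurjective hsurj).length_eq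
  show (Module.length k _).toNat = _
  rw [hlen, ENat.toNat_sum fun j _ => length_ne_top _]
  rfl

/-- The rows of the matrix: one row for each presentation. -/
theorem exists_window_bound (k : Type v) [CommRing k] [IsArtinianRing k] [Algebra k R]
    [Module.Finite k R] {ι : Type} [Fintype ι] (W : ι → ModuleCat.{u} R)
    (hW : ∀ i, Module.Finite R (W i)) :
    ∃ N : ℕ, ∀ K : ℕ → ModuleCat.{u} R, Win (N + 1) K →
      (∀ a, a < N → ∃ (C X : ModuleCat.{u} R) (f : C →ₗ[R] X) (g : X →ₗ[R] K a)
        (κ κ' : Type) (_ : Fintype κ) (_ : Fintype κ') (σ : κ → ι) (σ' : κ' → ι),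
        Nonempty (C ≃ₗ[R] Π j, W (σ j)) ∧ Nonempty (X ≃ₗ[R] Π j, W (σ' j)) ∧
          Function.Injective f ∧ Function.Surjective g ∧ Function.Exact f g) → False := by
  classical
  have : IsArtinianRing R := IsArtinianRing.of_finite k R
  have : IsNoetherianRing R := isNoetherian_of_tower k inferInstance
  let : ∀ X : ModuleCat.{u} R, Module k X := fun X => Module.compHom X (algebraMap k R)
  have : ∀ X : ModuleCat.{u} R, IsScalarTower k R X := fun X =>
    IsScalarTower.of_algebraMap_smul fun _ _ => rfl
  refine ⟨Fintype.card ι + (Module.length k ((Π i, W i) →ₗ[R] (Π i, W i))).toNat + 2,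
    fun K h hpres => ?_⟩
  have hfinK := h.finite
  have hpres' : ∀ a, ∃ (C X : ModuleCat.{u} R) (f : C →ₗ[R] X) (g : X →ₗ[R] K a)
      (κ κ' : Type) (_ : Fintype κ) (_ : Fintype κ') (σ : κ → ι) (σ' : κ' → ι),
      Nonempty (C ≃ₗ[R] Π j, W (σ j)) ∧ Nonempty (X ≃ₗ[R] Π j, W (σ' j)) ∧
        (a < Fintype.card ι + (Module.length k ((Π i, W i) →ₗ[R] (Π i, W i))).toNat + 2 →
          Function.Injective f ∧ Function.Surjective g ∧ Function.Exact f g) := by
    intro a
    by_cases ha : a < Fintype.card ι + (Module.length k ((Π i, W i) →ₗ[R] (Π i, W i))).toNat + 2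
    · obtain ⟨C, X, f, g, κ, κ', hκ, hκ', σ, σ', hC, hX, hh⟩ := hpres a ha
      exact ⟨C, X, f, g, κ, κ', hκ, hκ', σ, σ', hC, hX, fun _ => hh⟩
    · exact ⟨ModuleCat.of R (Π j : Empty, W (Empty.elim j)),
        ModuleCat.of R (Π j : Empty, W (Empty.elim j)), 0, 0, Empty, Empty, inferInstance,
        inferInstance, Empty.elim, Empty.elim, ⟨LinearEquiv.refl R _⟩, ⟨LinearEquiv.refl R _⟩,
        fun hc => absurd hc ha⟩
  choose C X f g κ κ' hκ hκ' σ σ' hC hX hh using hpres'
  have hfinX : ∀ a, Module.Finite R (X a) := fun a =>
    have := hκ' a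
    have : ∀ j, Module.Finite R (W (σ' a j)) := fun j => hW _
    Module.Finite.equiv (hX a).some.symm
  let V : ModuleCat.{u} R := ModuleCat.of R (Π i, W i)
  let E := (Module.length k (V →ₗ[R] V)).toNat
  let N := Fintype.card ι + E + 2
  have hf : ∀ a, a < N → Function.Injective (f a) := fun a ha => (hh a ha).1
  have hg : ∀ a, a < N → Function.Surjective (g a) := fun a ha => (hh a ha).2.1
  have hex : ∀ a, a < N → Function.Exact (f a) (g a) := fun a ha => (hh a ha).2.2
  have hext : ∀ a b, a < N → b ≤ a → ∀ φ : C a →ₗ[R] K b,
      ∃ F : X a →ₗ[R] K b, F.comp (f a) = φ :=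
    fun a b ha hab φ => ev_extend (hf a ha) (hg a ha) (hex a ha)
      (h.ext1 a b hab (Nat.lt_succ_of_lt ha)) φ
  have hextR : ∀ a, a < N → ∀ r (φ : C a →ₗ[R] (Fin r → R)),
      ∃ F : X a →ₗ[R] (Fin r → R), F.comp (f a) = φ := fun a ha r φ =>
    ev_extend (hf a ha) (hg a ha) (hex a ha)
      (ev_of_finite_projective 1 (h.extR a 0 (Nat.lt_succ_of_lt ha))) φ
  have : Module.Finite R V := Module.Finite.pi
  have : Module.Finite k (V →ₗ[R] V) := finite_hom
  let E := (Module.length k (V →ₗ[R] V)).toNat
  let N := Fintype.card ι + E + 2
  let A : Finset ℕ := (Finset.range N).filter fun a => Fac R (g a)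
  let B : Finset ℕ := (Finset.range N).filter fun a => ¬ Fac R (g a)
  have hAB : A.card + B.card = N := by
    rw [Finset.card_filter_add_card_filter_not, Finset.card_range]
  -- the presentations with stably nonzero epimorphism give independent rows
  have hB : B.card ≤ Fintype.card ι := by
    by_contra hlt
    push Not at hlt
    let s := B.orderEmbOfFin rfl
    refine no_triangular B.card hlt
      (fun m i => ((Finset.univ (α := κ' (s m))).filter fun j => σ' (s m) j = i).card -
        ((Finset.univ (α := κ (s m))).filter fun j => σ (s m) j = i).card)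
      (fun m i => sl R k (W i) (K (s m))) ?_ ?_
    all_goals
      have key : ∀ a b : ℕ,
          ∑ i, ((((Finset.univ (α := κ' a)).filter fun j => σ' a j = i).card : ℚ) -
            ((Finset.univ (α := κ a)).filter fun j => σ a j = i).card) * sl R k (W i) (K b)
          = (sl R k (X a) (K b) : ℚ) - sl R k (C a) (K b) := by
        intro a b
        have := hκ a
        have := hκ' a
        rw [sl_pi (fun j => W (σ' a j)) (hX a).some, sl_pi (fun j => W (σ a j)) (hC a).some]
        simp only [sub_mul, Finset.sum_sub_distrib]
        rw [← Finset.sum_fiberwise (Finset.univ (α := κ' a)) (σ' a)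
            (fun j => sl R k (W (σ' a j)) (K b)),
          ← Finset.sum_fiberwise (Finset.univ (α := κ a)) (σ a)
            (fun j => sl R k (W (σ a j)) (K b))]
        push_cast
        congr 1
        all_goals
          refine Finset.sum_congr rfl fun i _ => ?_
          rw [← nsmul_eq_mul, ← Finset.sum_const]
          exact Finset.sum_congr (by ext; simp) fun j hj => by rw [(Finset.mem_filter.1 hj).2]
    · intro a b hba
      rw [key, sub_eq_zero, Nat.cast_inj]
      have hlt' : s b < s a := s.strictMono hba
      have hsN : s a < N := Finset.mem_range.1 (Finset.mem_filter.1 (B.orderEmbOfFin_mem rfl a)).1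
      exact sl_eq (f (s a)) (g (s a)) (hg _ hsN) (hex _ hsN) (hext _ _ hsN hlt'.le)
        (hextR _ hsN) (h.fac _ _ hlt' (Nat.le_succ_of_le hsN.le))
    · intro a
      rw [key, sub_ne_zero, Ne, Nat.cast_inj]
      have hmem : ¬ Fac R (g (s a)) :=
        (Finset.mem_filter.1 (B.orderEmbOfFin_mem rfl a)).2
      have hsN : s a < N := Finset.mem_range.1 (Finset.mem_filter.1 (B.orderEmbOfFin_mem rfl a)).1
      exact (sl_lt (f (s a)) (g (s a)) (hex _ hsN).linearMap_comp_eq_zero hmem
        (hext _ _ hsN le_rfl)).ne'
  -- the others give a strictly descending chain of submodules of the endomorphisms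
  have hA : A.card ≤ E + 1 := by
    have hdata : ∀ a, ∃ (Y Q : ModuleCat.{u} R) (i : Y →ₗ[R] Q) (p : Q →ₗ[R] K a),
        Module.Finite R Q ∧ Module.Projective R Q ∧ Function.Injective i ∧
          Function.Surjective p ∧ Function.Exact i p ∧
          (a < N ∧ Fac R (g a) → ∃ (c : C a →ₗ[R] Y) (c' : Y →ₗ[R] C a),
            Fac R (c.comp c' - LinearMap.id)) := by
      intro a
      by_cases hga : a < N ∧ Fac R (g a)
      · obtain ⟨ha, r, p, q, hpq⟩ := hga
        have hfa := hf a ha
        have hga' := hg a ha
        have hea := hex a ha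
        obtain ⟨t, q₁, hq₁⟩ := Module.Finite.exists_fin' R (K a)
        let Q := ((Fin r → R) × (Fin t → R))
        let qq : Q →ₗ[R] K a := q.coprod q₁
        have hqq : Function.Surjective qq := fun y => by
          obtain ⟨z, hz⟩ := hq₁ y
          exact ⟨(0, z), by show q 0 + q₁ z = y; rw [map_zero, zero_add, hz]⟩
        obtain ⟨lift, hlift⟩ := Module.projective_lifting_property (g a) qq hga'
        have hfin1 : Module.Finite R Q := inferInstance
        have hproj1 : Module.Projective R Q := inferInstance
        refine ⟨ModuleCat.of R (LinearMap.ker qq), ModuleCat.of R Q,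
          (LinearMap.ker qq).subtype, qq, hfin1, hproj1,
          Submodule.subtype_injective _, hqq, LinearMap.exact_subtype_ker_map qq, fun _ => ?_⟩
        let pp : X a →ₗ[R] Q := (LinearMap.inl R _ _).comp p
        have hpp : qq.comp pp = g a := by
          rw [hpq]
          ext x
          show q (p x) + q₁ 0 = q (p x)
          rw [map_zero, add_zero]
        let c : C a →ₗ[R] LinearMap.ker qq := (pp.comp (f a)).codRestrict _ fun x => by
          rw [LinearMap.mem_ker]
          exact (LinearMap.congr_fun hpp (f a x)).trans (hea.apply_apply_eq_zero x)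
        have hmem : ∀ z : LinearMap.ker qq, lift z ∈ LinearMap.range (f a) := fun z =>
          (hea _).1 ((LinearMap.congr_fun hlift z).trans z.2)
        let c' : LinearMap.ker qq →ₗ[R] C a :=
          (LinearEquiv.ofInjective (f a) hfa).symm.toLinearMap.comp
            ((lift.comp (LinearMap.ker qq).subtype).codRestrict _ hmem)
        have hc' : ∀ z : LinearMap.ker qq, f a (c' z) = lift z := fun z =>
          congrArg Subtype.val ((LinearEquiv.ofInjective (f a) hfa).apply_symm_apply
            ⟨lift z, hmem z⟩)
        let D : Q →ₗ[R] LinearMap.ker qq := (pp.comp lift - LinearMap.id).codRestrict _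
          fun z => by
            rw [LinearMap.mem_ker, LinearMap.sub_apply, map_sub, LinearMap.id_apply,
              sub_eq_zero]
            exact (LinearMap.congr_fun hpp (lift z)).trans (LinearMap.congr_fun hlift z)
        refine ⟨c, c', ?_⟩
        have hD : c.comp c' - LinearMap.id = D.comp (LinearMap.ker qq).subtype := by
          ext z : 1
          apply Subtype.ext
          show pp (f a (c' z)) - (z : Q) = pp (lift z) - (z : Q)
          rw [hc']
        exact hD ▸ fac_through (LinearMap.ker qq).subtype D
      · obtain ⟨t, q₁, hq₁⟩ := Module.Finite.exists_fin' R (K a)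
        exact ⟨ModuleCat.of R (LinearMap.ker q₁), ModuleCat.of R (Fin t → R),
          (LinearMap.ker q₁).subtype, q₁, inferInstanceAs (Module.Finite R (Fin t → R)),
          inferInstanceAs (Module.Projective R (Fin t → R)), Submodule.subtype_injective _, hq₁,
          LinearMap.exact_subtype_ker_map q₁, fun hc => absurd hc hga⟩
    choose Y Q i p hQf hQp hi hp hiex hc using hdata
    have hY : Win N Y := h.presented i p hQf hQp hi hp hiex
    let gens : ℕ → Set (V →ₗ[R] V) := fun a =>
      {u | ∃ (α : V →ₗ[R] Y a) (β : Y a →ₗ[R] V), u = β.comp α}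
    let F : ℕ → Submodule k (V →ₗ[R] V) := fun a =>
      Submodule.span k (⋃ c ∈ A.filter fun c => a ≤ c, gens c)
    have hstrict : ∀ a ∈ A, ∀ b ∈ A, a < b → F b < F a := by
      intro a ha b hb hab
      refine lt_of_le_of_ne (Submodule.span_mono ?_) fun heq => ?_
      · refine Set.biUnion_subset_biUnion_left fun c hc => ?_
        simp only [Finset.coe_filter, Set.mem_ofPred_eq] at hc ⊢
        exact ⟨hc.1, hab.le.trans hc.2⟩
      -- every generator at `a` composed with one from later indices factors
      have hann : ∀ u ∈ gens a, ∀ w ∈ F b, Fac R (u.comp w) := by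
        intro u hu w hw
        refine (Submodule.span_le (p := (facSub R k V V).comap (postc u))).2 ?_ hw
        intro w' hw'
        simp only [Set.mem_iUnion] at hw'
        obtain ⟨d, hd, α', β', rfl⟩ := hw'
        obtain ⟨α, β, rfl⟩ := hu
        have had : a < d := lt_of_lt_of_le hab (Finset.mem_filter.1 hd).2
        exact ((hY.fac d a had (Finset.mem_range.1 (Finset.mem_filter.1
          (Finset.mem_filter.1 hd).1).1).le (α.comp β')).comp_left β).comp_right α'
      have hself : ∀ u ∈ gens a, ∀ w ∈ gens a, Fac R (u.comp w) := by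
        intro u hu w hw
        refine hann u hu w ?_
        rw [heq]
        refine Submodule.subset_span ?_
        simp only [Set.mem_iUnion]
        exact ⟨a, Finset.mem_filter.2 ⟨ha, le_rfl⟩, hw⟩
      -- but the identity of `Y a` factors through `V` up to projectives
      obtain ⟨c, c', hcc⟩ := hc a
        ⟨Finset.mem_range.1 (Finset.mem_filter.1 ha).1, (Finset.mem_filter.1 ha).2⟩
      have := hκ a
      let e := (hC a).some
      let α₀ : ∀ j, V →ₗ[R] Y a := fun j => c.comp (e.symm.toLinearMap.comp
        ((LinearMap.single R (fun j => W (σ a j)) j).comp (LinearMap.proj (σ a j))))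
      let β₀ : ∀ j, Y a →ₗ[R] V := fun j => (LinearMap.single R (fun i => W i) (σ a j)).comp
        ((LinearMap.proj j).comp (e.toLinearMap.comp c'))
      let P : Y a →ₗ[R] Y a := c.comp c'
      have hP : P = ∑ j, (α₀ j).comp (β₀ j) := by
        ext y
        simp only [P, α₀, β₀, LinearMap.sum_apply, LinearMap.comp_apply, LinearMap.coe_proj,
          Function.eval, LinearMap.coe_single, LinearEquiv.coe_coe]
        rw [← map_sum, ← map_sum, Finset.univ_sum_single]
        refine congrArg c (((LinearEquiv.symm_apply_eq e).2 (funext fun x => ?_)).symm)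
        exact Pi.single_eq_same (M := fun i => (W i : Type u)) (σ a x) _
      have hP3 : Fac R ((P.comp P).comp P) := by
        have h1 : (P.comp P).comp P = ∑ m, ∑ l, ∑ j, (α₀ j).comp
            ((((β₀ j).comp (α₀ l)).comp ((β₀ l).comp (α₀ m))).comp (β₀ m)) := by
          rw [hP]
          ext y
          simp only [LinearMap.sum_apply, LinearMap.comp_apply, map_sum]
        rw [h1]
        exact fac_sum _ _ fun m _ => fac_sum _ _ fun l _ => fac_sum _ _ fun j _ =>
          (((hself _ ⟨α₀ l, β₀ j, rfl⟩ _ ⟨α₀ m, β₀ l, rfl⟩).comp_right _).comp_left _)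
      refine hY.notProjective a (Finset.mem_range.1 (Finset.mem_filter.1 ha).1).le
        (projective_of_fac_id ?_)
      have h2 : (LinearMap.id : Y a →ₗ[R] Y a) = (P.comp P).comp P +
          (-((P - LinearMap.id).comp (P.comp P)) + (-((P - LinearMap.id).comp P) +
            -(P - LinearMap.id))) := by
        ext y
        simp only [LinearMap.add_apply, LinearMap.neg_apply, LinearMap.sub_apply,
          LinearMap.comp_apply, LinearMap.id_apply]
        abel
      rw [h2]
      exact hP3.add (((hcc.comp_right _).neg).add (((hcc.comp_right _).neg).add hcc.neg))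
    have hinj : Set.InjOn (fun a => (Module.length k (F a)).toNat) A := by
      have : ∀ a ∈ A, ∀ b ∈ A, a < b →
          (Module.length k (F b)).toNat < (Module.length k (F a)).toNat := by
        intro a ha b hb hab
        have hle := hstrict a ha b hb hab
        have : IsArtinian k (V →ₗ[R] V) :=
          isArtinian_of_fg_of_artinian' (R := k) (M := V →ₗ[R] V)
        have h1 := Submodule.height_strictMono (R := k) (M := V →ₗ[R] V) hle
        rw [← Module.length_submodule, ← Module.length_submodule,
          ← ENat.natCast_toNat (length_ne_top (F b)),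
          ← ENat.natCast_toNat (length_ne_top (F a)), Nat.cast_lt] at h1
        exact h1
      intro a ha b hb hab
      rcases lt_trichotomy a b with hlt | heq | hgt
      · exact absurd hab (this a ha b hb hlt).ne'
      · exact heq
      · exact absurd hab (this b hb a ha hgt).ne
    have hmaps : Set.MapsTo (fun a => (Module.length k (F a)).toNat) A
        (Finset.range (E + 1) : Set ℕ) := by
      intro a _
      simp only [Finset.coe_range, Set.mem_Iio]
      refine Nat.lt_succ_of_le (ENat.toNat_le_toNat ?_ (length_ne_top _))
      exact Module.length_le_of_injective (F a).subtype (Submodule.subtype_injective _)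
    simpa using Finset.card_le_card_of_injOn _ hmaps hinj
  omega

end Vale.Agent.P195
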