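import Vale.Agent.P195.Transpose
import Vale.Agent.P195.WindowBound

/-!
The Auslander-Reiten conjecture, with a uniform finite bound, for algebras which are Igusa-Todorov
on one side.
-/

universe u v

namespace Vale.Agent.P195

/-- No long window admits presentations by a fixed module after `n` syzygies. -/
theorem exists_bound_presented (k : Type v) [CommRing k] [IsArtinianRing k] {R : Type u} [Ring R]
    [Algebra k R] [Module.Finite k R] (n : ℕ) (V : ModuleCat.{u} R) [Module.Finite R V] :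
    ∃ N, ∀ Z : ℕ → ModuleCat.{u} R, Win N Z →
      (∀ a, ∃ K, IsSyzygy n (Z a) K ∧ HasAddPresentation V K) → False := by
  have : IsArtinianRing R := IsArtinianRing.of_finite k R
  have : IsNoetherianRing R := isNoetherian_of_tower k inferInstance
  obtain ⟨ι, _, W, hW, hdec⟩ := exists_family (R := R) V
  obtain ⟨N, hN⟩ := exists_window_bound k W hW
  refine ⟨N + 1 + n, fun Z hZ hV => ?_⟩
  choose K hK hKp using hV
  refine hN K (hZ.syzygy n hK) fun a _ => ?_
  obtain ⟨C, X₀, f, g, ⟨C', r, ⟨eC⟩⟩, ⟨X', r', ⟨eX⟩⟩, hf, hg, hex⟩ := hKp a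
  obtain ⟨κ, hκ, σ, hσ⟩ := hdec C C' r eC
  obtain ⟨κ', hκ', σ', hσ'⟩ := hdec X₀ X' r' eX
  exact ⟨C, X₀, f, g, κ, κ', hκ, hκ', σ, σ', hσ, hσ', hf, hg, hex⟩

/-- A module with vanishing in degrees up to `2 * N + 3` gives windows of length `N`, both in its
resolution and in the dual of that resolution. -/
theorem exists_windows {R : Type u} [Ring R] [IsNoetherianRing R] [IsNoetherianRing Rᵐᵒᵖ] (N : ℕ)
    (M : ModuleCat.{u} R) [Module.Finite R M] (hp : ¬ Module.Projective R M)
    (hE : ∀ i, 1 ≤ i → i ≤ 2 * N + 5 → EV R M M i ∧ EV R M R i) :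
    ∃ (Z : ℕ → ModuleCat.{u} R) (Z' : ℕ → ModuleCat.{u} Rᵐᵒᵖ),
      Win N Z ∧ Win N Z' ∧ ∀ a, IsSyzygy (a + 1) M (Z a) := by
  obtain ⟨z, n, ι, π, rfl, hsyz, hfin, hz⟩ := exists_free_chain M
  have hι := fun a => (hz a).1
  have hπ := fun a => (hz a).2.1
  have hex := fun a => (hz a).2.2
  have chain : ∀ L, L ≤ N + 1 →
      Win L (fun a => z (a + 1)) ∧ ∀ a, a ≤ 2 * L + 2 → EV R (z a) R 1 := fun L hL =>
    win_of_chain L z (fun a => ModuleCat.of R (Fin (n a) → R)) ι π hfin
      (fun a => inferInstanceAs (Module.Finite R (Fin (n a) → R)))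
      (fun a => inferInstanceAs (Module.Projective R (Fin (n a) → R))) hι hπ hex
      (fun i hi => (hE (i + 1) (by omega) (by omega)).2)
      (fun i hi => (hE (i + 1) (by omega) (by omega)).1) hp
  obtain ⟨hW, hzR⟩ := chain (N + 1) le_rfl
  refine ⟨_, _, (chain N (by omega)).1, exists_win_transpose z n ι π N hι hπ hex hfin
    (fun a ha => hzR a (by omega)) ?_ ?_, fun a => hsyz (a + 1)⟩
  · intro a b ha hab hb f
    obtain ⟨a, rfl⟩ : ∃ a', a = a' + 1 := ⟨a - 1, by omega⟩
    obtain ⟨b, rfl⟩ : ∃ b', b = b' + 1 := ⟨b - 1, by omega⟩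
    exact hW.fac b a (by omega) (by omega) f
  · intro a ha
    cases a with
    | zero => exact hp
    | succ a => exact hW.notProjective a (by omega)

/-- The Auslander-Reiten conjecture with a uniform bound, relative to presentations of syzygies. -/
theorem exists_bound_of_addPresentation (k : Type v) [CommRing k] [IsArtinianRing k] {R : Type u}
    [Ring R] [Algebra k R] [Module.Finite k R] (n : ℕ) (V : ModuleCat.{u} R)
    (hVf : Module.Finite R V) :
    ∃ N, ∀ M : ModuleCat.{u} R, Module.Finite R M →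
      (∀ i, 1 ≤ i → i ≤ N → EV R M M i ∧ EV R M R i) →
      (∀ (a : ℕ) (X : ModuleCat.{u} R), IsSyzygy a M X →
        ∃ K, IsSyzygy n X K ∧ HasAddPresentation V K) → Module.Projective R M := by
  have : IsNoetherianRing R := isNoetherian_of_tower k inferInstance
  have : Module.Finite k Rᵐᵒᵖ := Module.Finite.equiv (MulOpposite.opLinearEquiv k)
  have : IsNoetherianRing Rᵐᵒᵖ := isNoetherian_of_tower k inferInstance
  obtain ⟨N, hN⟩ := exists_bound_presented k n V
  refine ⟨2 * N + 5, fun M hM hE hV => by_contra fun hp => ?_⟩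
  obtain ⟨Z, Z', hZ, _, hs⟩ := exists_windows N M hp hE
  exact hN Z hZ fun a => hV (a + 1) (Z a) (hs a)

/-- The Auslander-Reiten conjecture with a uniform bound for algebras which are Igusa-Todorov, or
whose opposite algebra is. -/
theorem exists_bound_of_igusaTodorov (k : Type v) [CommRing k] [IsArtinianRing k] {R : Type u}
    [Ring R] [Algebra k R] [Module.Finite k R]
    (h : IsIgusaTodorov R ∨ IsIgusaTodorov Rᵐᵒᵖ) :
    ∃ N, ∀ M : ModuleCat.{u} R, Module.Finite R M →
      (∀ i, 1 ≤ i → i ≤ N → EV R M M i ∧ EV R M R i) → Module.Projective R M := by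
  have : IsNoetherianRing R := isNoetherian_of_tower k inferInstance
  have : Module.Finite k Rᵐᵒᵖ := Module.Finite.equiv (MulOpposite.opLinearEquiv k)
  have : IsNoetherianRing Rᵐᵒᵖ := isNoetherian_of_tower k inferInstance
  rcases h with ⟨n, V, hVf, hV⟩ | ⟨n, V, hVf, hV⟩
  · obtain ⟨N, hN⟩ := exists_bound_of_addPresentation k n V hVf
    exact ⟨N, fun M hM hE => hN M hM hE fun a X hX => hV X (IsSyzygy.finite a hM hX)⟩
  · obtain ⟨N, hN⟩ := exists_bound_presented k n V
    refine ⟨2 * N + 5, fun M hM hE => by_contra fun hp => ?_⟩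
    obtain ⟨Z, Z', _, hZ', _⟩ := exists_windows N M hp hE
    exact hN Z' hZ' fun a => hV (Z' a) (hZ'.finite a)

end Vale.Agent.P195
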