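import Vale.Agent.P195.Homol
import Vale.Agent.P195.Count

/-!
Maps factoring through finitely generated free modules, and lengths of stable spaces of maps.
-/

universe u v

namespace Vale.Agent.P195

variable (R : Type u) [Ring R]

/-- A map factors through a finitely generated free module. -/
def Fac {X Y : Type u} [AddCommGroup X] [Module R X] [AddCommGroup Y] [Module R Y]
    (f : X →ₗ[R] Y) : Prop :=
  ∃ (r : ℕ) (p : X →ₗ[R] (Fin r → R)) (q : (Fin r → R) →ₗ[R] Y), f = q.comp p

variable {R}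

section

variable {X Y Z P : Type u} [AddCommGroup X] [Module R X] [AddCommGroup Y] [Module R Y]
  [AddCommGroup Z] [Module R Z] [AddCommGroup P] [Module R P]

theorem Fac.comp_right {f : Y →ₗ[R] Z} (h : Fac R f) (g : X →ₗ[R] Y) : Fac R (f.comp g) := by
  obtain ⟨r, p, q, rfl⟩ := h
  exact ⟨r, p.comp g, q, rfl⟩

theorem Fac.comp_left {f : X →ₗ[R] Y} (h : Fac R f) (g : Y →ₗ[R] Z) : Fac R (g.comp f) := by
  obtain ⟨r, p, q, rfl⟩ := h
  exact ⟨r, p, g.comp q, rfl⟩

theorem fac_zero : Fac R (0 : X →ₗ[R] Y) := ⟨0, 0, 0, by simp⟩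

theorem fac_through [Module.Finite R P] [Module.Projective R P] (p : X →ₗ[R] P)
    (q : P →ₗ[R] Y) : Fac R (q.comp p) := by
  obtain ⟨r, w, hw⟩ := Module.Finite.exists_fin' R P
  obtain ⟨s, hs⟩ := Module.projective_lifting_property w LinearMap.id hw
  exact ⟨r, s.comp p, q.comp w, by
    rw [LinearMap.comp_assoc, ← LinearMap.comp_assoc p s w, hs, LinearMap.id_comp]⟩

theorem Fac.add {f g : X →ₗ[R] Y} (hf : Fac R f) (hg : Fac R g) : Fac R (f + g) := by
  obtain ⟨r, p, q, rfl⟩ := hf
  obtain ⟨r', p', q', rfl⟩ := hg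
  have := fac_through (p.prod p') (q.coprod q')
  rwa [LinearMap.coprod_comp_prod] at this

theorem fac_sum {ι : Type*} (s : Finset ι) (f : ι → (X →ₗ[R] Y)) (h : ∀ i ∈ s, Fac R (f i)) :
    Fac R (∑ i ∈ s, f i) :=
  Finset.sum_induction f (Fac R) (fun _ _ => Fac.add) fac_zero h

theorem Fac.neg {f : X →ₗ[R] Y} (hf : Fac R f) : Fac R (-f) := by
  obtain ⟨r, p, q, rfl⟩ := hf
  exact ⟨r, p, -q, (LinearMap.neg_comp p q).symm⟩

theorem projective_of_fac_id (h : Fac R (LinearMap.id : X →ₗ[R] X)) : Module.Projective R X := by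
  obtain ⟨r, p, q, hpq⟩ := h
  exact Module.Projective.of_split p q hpq.symm

end

section

variable (k : Type v) [CommRing k] [IsArtinianRing k] [Algebra k R] [Module.Finite k R]

variable (X Y : Type u) [AddCommGroup X] [Module R X]
  [AddCommGroup Y] [Module R Y] [Module k Y] [IsScalarTower k R Y]

variable (R) in
/-- The maps factoring through a finitely generated free module, as a `k`-submodule. -/
def facSub : Submodule k (X →ₗ[R] Y) where
  carrier := {f | Fac R f}
  add_mem' := Fac.add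
  zero_mem' := fac_zero
  smul_mem' c f h := by
    obtain ⟨r, p, q, rfl⟩ := h
    exact ⟨r, p, c • q, (LinearMap.smul_comp c q p).symm⟩

variable (R) in
/-- The length of the space of stable maps. -/
noncomputable def sl : ℕ := (Module.length k ((X →ₗ[R] Y) ⧸ facSub R k X Y)).toNat

end

section

variable {k : Type v} [CommRing k] [IsArtinianRing k] [Algebra k R] [Module.Finite k R]

variable {C X A Y : Type u} [AddCommGroup C] [Module R C] [AddCommGroup X] [Module R X]
  [AddCommGroup A] [Module R A]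
  [AddCommGroup Y] [Module R Y] [Module k Y] [IsScalarTower k R Y]

/-- Restriction along a map between stable spaces of maps. -/
noncomputable def stRes (ι : C →ₗ[R] X) :
    ((X →ₗ[R] Y) ⧸ facSub R k X Y) →ₗ[k] ((C →ₗ[R] Y) ⧸ facSub R k C Y) :=
  Submodule.mapQ _ _ (prec ι) fun _ h => Fac.comp_right h ι

omit [IsArtinianRing k] [Module.Finite k R] in
theorem stRes_surjective (ι : C →ₗ[R] X)
    (hext : ∀ f : C →ₗ[R] Y, ∃ F : X →ₗ[R] Y, F.comp ι = f) :
    Function.Surjective (stRes (k := k) (Y := Y) ι) := by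
  intro z
  obtain ⟨f, rfl⟩ := Submodule.mkQ_surjective _ z
  obtain ⟨F, rfl⟩ := hext f
  exact ⟨Submodule.Quotient.mk F, rfl⟩

theorem sl_eq (ι : C →ₗ[R] X) (π : X →ₗ[R] A) (hπ : Function.Surjective π)
    (hex : Function.Exact ι π) (hext : ∀ f : C →ₗ[R] Y, ∃ F : X →ₗ[R] Y, F.comp ι = f)
    (hextR : ∀ (r : ℕ) (f : C →ₗ[R] (Fin r → R)), ∃ F : X →ₗ[R] (Fin r → R), F.comp ι = f)
    (hfac : ∀ g : A →ₗ[R] Y, Fac R g) :
    sl R k X Y = sl R k C Y := by
  refine congrArg ENat.toNat (LinearEquiv.length_eq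
    (LinearEquiv.ofBijective (stRes (k := k) ι) ⟨?_, stRes_surjective ι hext⟩))
  refine LinearMap.ker_eq_bot.1 (eq_bot_iff.2 fun z hz => ?_)
  obtain ⟨f, rfl⟩ := Submodule.mkQ_surjective _ z
  have hf : Fac R (f.comp ι) := (Submodule.Quotient.mk_eq_zero (facSub R k C Y)).1 hz
  obtain ⟨r, p, q, hpq⟩ := hf
  obtain ⟨p', hp'⟩ := hextR r p
  have hker : LinearMap.ker π ≤ LinearMap.ker (f - q.comp p') := by
    intro x hx
    obtain ⟨c, rfl⟩ := (hex x).1 hx
    rw [LinearMap.mem_ker, LinearMap.sub_apply, sub_eq_zero]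
    refine (LinearMap.congr_fun hpq c).trans ?_
    rw [← hp']
    rfl
  let g : A →ₗ[R] Y := ((LinearMap.ker π).liftQ _ hker).comp
    (π.quotKerEquivOfSurjective hπ).symm.toLinearMap
  have hg : g.comp π = f - q.comp p' := by
    ext x
    have : (π.quotKerEquivOfSurjective hπ).symm (π x) = Submodule.Quotient.mk x :=
      (LinearEquiv.symm_apply_eq _).2 rfl
    simp [g, this]
  rw [Submodule.mem_bot, Submodule.mkQ_apply, Submodule.Quotient.mk_eq_zero]
  have h1 : f = g.comp π + q.comp p' := by rw [hg, sub_add_cancel]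
  show Fac R f
  rw [h1]
  exact ((hfac g).comp_right π).add (fac_through p' q)

theorem sl_lt [Module.Finite R X] [Module.Finite R Y] (ι : C →ₗ[R] X) (g : X →ₗ[R] Y)
    (hg : g.comp ι = 0) (hgf : ¬ Fac R g)
    (hext : ∀ f : C →ₗ[R] Y, ∃ F : X →ₗ[R] Y, F.comp ι = f) :
    sl R k C Y < sl R k X Y := by
  have : Module.Finite k (X →ₗ[R] Y) := finite_hom
  set res := stRes (k := k) (Y := Y) ι
  have h := toNat_add (LinearMap.ker res).subtype res (Submodule.subtype_injective _)
    (stRes_surjective ι hext) (LinearMap.exact_subtype_ker_map res)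
  have hne : LinearMap.ker res ≠ ⊥ := by
    intro hbot
    have hmem : Submodule.Quotient.mk g ∈ LinearMap.ker res := by
      show Submodule.Quotient.mk (g.comp ι) = (0 : (C →ₗ[R] Y) ⧸ facSub R k C Y)
      rw [hg]
      rfl
    rw [hbot, Submodule.mem_bot, Submodule.Quotient.mk_eq_zero] at hmem
    exact hgf hmem
  have hnt : Nontrivial (LinearMap.ker res) := Submodule.nontrivial_iff_ne_bot.2 hne
  have h0 : (Module.length k (LinearMap.ker res)).toNat ≠ 0 := by
    rw [Ne, ENat.toNat_eq_zero]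
    push Not
    exact ⟨Module.length_pos.ne', length_ne_top _⟩
  change (Module.length k _).toNat < (Module.length k _).toNat
  omega

end

end Vale.Agent.P195
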