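import Vale.Agent.P195.Defs
import Vale.Agent.P195.Stable

/-!
Families of modules with the vanishing properties of the syzygies of a self-orthogonal module.
-/

universe u

open CategoryTheory CategoryTheory.Abelian

namespace Vale.Agent.P195

variable {R : Type u} [Ring R]

section

variable {K P X K' P' Y : Type u} [AddCommGroup K] [Module R K] [AddCommGroup P] [Module R P]
  [AddCommGroup X] [Module R X] [AddCommGroup K'] [Module R K'] [AddCommGroup P'] [Module R P']
  [AddCommGroup Y] [Module R Y]
variable {ι : K →ₗ[R] P} {π : P →ₗ[R] X} {ι' : K' →ₗ[R] P'} {π' : P' →ₗ[R] Y}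

theorem fac_syzygy [Module.Finite R P] [Module.Projective R P] [Module.Finite R P']
    [Module.Projective R P'] (hι : Function.Injective ι) (hπ : Function.Surjective π)
    (hex : Function.Exact ι π) (hι' : Function.Injective ι') (hπ' : Function.Surjective π')
    (hex' : Function.Exact ι' π') (hXR : EV R X R 1) (hfac : ∀ g : X →ₗ[R] Y, Fac R g)
    (f : K →ₗ[R] K') : Fac R f := by
  obtain ⟨F, hF⟩ := ev_extend hι hπ hex (ev_of_finite_projective (P := P') 1 hXR) (ι'.comp f)
  have hker : LinearMap.ker π ≤ LinearMap.ker (π'.comp F) := by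
    intro x hx
    obtain ⟨c, rfl⟩ := (hex x).1 hx
    rw [LinearMap.mem_ker, LinearMap.comp_apply]
    rw [show F (ι c) = ι' (f c) from LinearMap.congr_fun hF c]
    exact hex'.apply_apply_eq_zero _
  let g : X →ₗ[R] Y := ((LinearMap.ker π).liftQ _ hker).comp
    (π.quotKerEquivOfSurjective hπ).symm.toLinearMap
  have hg : ∀ x, g (π x) = π' (F x) := fun x => by
    have : (π.quotKerEquivOfSurjective hπ).symm (π x) = Submodule.Quotient.mk x :=
      (LinearEquiv.symm_apply_eq _).2 rfl
    simp [g, this]
  obtain ⟨r, p, q, hpq⟩ := hfac g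
  obtain ⟨q', hq'⟩ := Module.projective_lifting_property π' q hπ'
  let D : P →ₗ[R] P' := F - q'.comp (p.comp π)
  have hD : ∀ x, D x ∈ LinearMap.range ι' := fun x => by
    refine (hex' (D x)).1 ?_
    have h1 : π' (q' (p (π x))) = q (p (π x)) := LinearMap.congr_fun hq' _
    have h2 : g (π x) = q (p (π x)) := LinearMap.congr_fun hpq _
    simp only [D, LinearMap.sub_apply, LinearMap.comp_apply, map_sub]
    rw [h1, ← h2, hg, sub_self]
  let h : P →ₗ[R] K' := (LinearEquiv.ofInjective ι' hι').symm.toLinearMap.comp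
    (D.codRestrict _ hD)
  have hh : f = h.comp ι := by
    ext c
    apply hι'
    have h1 : ι' (h (ι c)) = D (ι c) :=
      congrArg Subtype.val ((LinearEquiv.ofInjective ι' hι').apply_symm_apply ⟨D (ι c), hD _⟩)
    rw [LinearMap.comp_apply, h1]
    simp only [D, LinearMap.sub_apply, LinearMap.comp_apply, hex.apply_apply_eq_zero, map_zero,
      sub_zero]
    exact (LinearMap.congr_fun hF c).symm
  rw [hh]
  exact fac_through ι h

theorem not_projective_syzygy [Module.Finite R P] [Module.Projective R P] [Module.Finite R K]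
    (hι : Function.Injective ι) (hπ : Function.Surjective π) (hex : Function.Exact ι π)
    (hXR : EV R X R 1) (hX : ¬ Module.Projective R X) : ¬ Module.Projective R K := by
  intro hK
  obtain ⟨r, hr⟩ := ev_extend hι hπ hex (ev_of_finite_projective (P := K) 1 hXR) LinearMap.id
  have hker : LinearMap.ker π ≤ LinearMap.ker (LinearMap.id - ι.comp r) := by
    intro x hx
    obtain ⟨c, rfl⟩ := (hex x).1 hx
    have : r (ι c) = c := LinearMap.congr_fun hr c
    simp [this]
  let s : X →ₗ[R] P := ((LinearMap.ker π).liftQ _ hker).comp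
    (π.quotKerEquivOfSurjective hπ).symm.toLinearMap
  have hs : π.comp s = LinearMap.id := by
    ext y
    obtain ⟨x, rfl⟩ := hπ y
    have : (π.quotKerEquivOfSurjective hπ).symm (π x) = Submodule.Quotient.mk x :=
      (LinearEquiv.symm_apply_eq _).2 rfl
    simp [s, this, hex.apply_apply_eq_zero]
  exact hX (Module.Projective.of_split s π hs)

end

theorem finite_of_injective_finite [IsNoetherianRing R] {K P : Type u} [AddCommGroup K]
    [Module R K] [AddCommGroup P] [Module R P] [Module.Finite R P] (ι : K →ₗ[R] P)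
    (hι : Function.Injective ι) : Module.Finite R K :=
  have : IsNoetherian R K := isNoetherian_of_injective ι hι
  inferInstance

/-- A sequence of modules with the vanishing properties of syzygies of a nonprojective
self-orthogonal module. -/
structure Good (X : ℕ → ModuleCat.{u} R) : Prop where
  finite : ∀ a, Module.Finite R (X a)
  ext : ∀ a b, b ≤ a → ∀ i, EV R (X a) (X b) (i + 1)
  extR : ∀ a i, EV R (X a) R (i + 1)
  fac : ∀ a b, b < a → ∀ f : X a →ₗ[R] X b, Fac R f
  notProjective : ∀ a, ¬ Module.Projective R (X a)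

theorem Good.presented [IsNoetherianRing R] {X Y P : ℕ → ModuleCat.{u} R} (h : Good X)
    (ι : ∀ a, Y a →ₗ[R] P a) (π : ∀ a, P a →ₗ[R] X a) (hfin : ∀ a, Module.Finite R (P a))
    (hproj : ∀ a, Module.Projective R (P a)) (hι : ∀ a, Function.Injective (ι a))
    (hπ : ∀ a, Function.Surjective (π a)) (hex : ∀ a, Function.Exact (ι a) (π a)) : Good Y where
  finite a := finite_of_injective_finite (ι a) (hι a)
  ext a b hab i := ev_shift (hι a) (hπ a) (hex a) i (ev_cov (hι b) (hπ b) (hex b) (i + 1)
    (h.ext a b hab i) (ev_of_finite_projective (i + 2) (h.extR a (i + 1))))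
  extR a i := ev_shift (hι a) (hπ a) (hex a) i (h.extR a (i + 1))
  fac a b hab f := fac_syzygy (hι a) (hπ a) (hex a) (hι b) (hπ b) (hex b) (h.extR a 0)
    (h.fac a b hab) f
  notProjective a :=
    have := finite_of_injective_finite (ι a) (hι a)
    not_projective_syzygy (hι a) (hπ a) (hex a) (h.extR a 0) (h.notProjective a)

theorem ev_congr {X X' Y Y' : Type u} [AddCommGroup X] [Module R X] [AddCommGroup X'] [Module R X']
    [AddCommGroup Y] [Module R Y] [AddCommGroup Y'] [Module R Y'] (e : X' ≃ₗ[R] X)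
    (e' : Y' ≃ₗ[R] Y) {i : ℕ} (h : EV R X Y i) : EV R X' Y' i := by
  refine subsingleton_of_forall_eq 0 fun x => ?_
  have h0 : (Ext.mk₀ (ModuleCat.ofHom e.symm.toLinearMap)).comp
      (x.comp (Ext.mk₀ (ModuleCat.ofHom e'.toLinearMap)) (add_zero i)) (zero_add i) = 0 :=
    h.elim _ _
  have hx : x = (Ext.mk₀ (ModuleCat.ofHom e.toLinearMap)).comp
      ((Ext.mk₀ (ModuleCat.ofHom e.symm.toLinearMap)).comp
        ((x.comp (Ext.mk₀ (ModuleCat.ofHom e'.toLinearMap)) (add_zero i)).comp
          (Ext.mk₀ (ModuleCat.ofHom e'.symm.toLinearMap)) (add_zero i)) (zero_add i))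
      (zero_add i) := by
    rw [Ext.comp_assoc_of_second_deg_zero, Ext.mk₀_comp_mk₀, Ext.mk₀_comp_mk₀_assoc,
      ← ModuleCat.ofHom_comp, ← ModuleCat.ofHom_comp]
    simp
  rw [hx, ← Ext.comp_assoc _ _ _ (zero_add i) (add_zero i) (by omega), h0, Ext.zero_comp,
    Ext.comp_zero]

theorem Good.of_iso {X Y : ℕ → ModuleCat.{u} R} (h : Good X) (e : ∀ a, Y a ≃ₗ[R] X a) : Good Y where
  finite a := have := h.finite a; Module.Finite.equiv (e a).symm
  ext a b hab i := ev_congr (e a) (e b) (h.ext a b hab i)
  extR a i := ev_congr (e a) (LinearEquiv.refl R R) (h.extR a i)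
  fac a b hab f := by
    have h1 := ((h.fac a b hab ((e b).toLinearMap.comp (f.comp (e a).symm.toLinearMap))).comp_left
      (e b).symm.toLinearMap).comp_right (e a).toLinearMap
    convert h1 using 1
    ext x
    simp
  notProjective a hp := h.notProjective a (Module.Projective.of_equiv (e a))

theorem Good.syzygy [IsNoetherianRing R] : ∀ (n : ℕ) {X K : ℕ → ModuleCat.{u} R},
    Good X → (∀ a, IsSyzygy n (X a) (K a)) → Good K
  | 0, _, _, h, hK => h.of_iso fun a => (hK a).some
  | n + 1, _, _, h, hK => by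
    choose Y P ι π hfin hproj hι hπ hex hY using hK
    exact Good.syzygy n (h.presented ι π hfin hproj hι hπ hex) hY

theorem IsSyzygy.succ : ∀ (n : ℕ) {M X Y P : ModuleCat.{u} R} (ι : Y →ₗ[R] P) (π : P →ₗ[R] X),
    IsSyzygy n M X → Module.Finite R P → Module.Projective R P → Function.Injective ι →
      Function.Surjective π → Function.Exact ι π → IsSyzygy (n + 1) M Y
  | 0, M, X, Y, P, ι, π, ⟨e⟩, hfin, hproj, hι, hπ, hex =>
    ⟨Y, P, ι, e.toLinearMap.comp π, hfin, hproj, hι, e.surjective.comp hπ,
      fun x => by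
        rw [LinearMap.comp_apply, LinearEquiv.coe_coe, LinearEquiv.map_eq_zero_iff]
        exact hex x,
      ⟨LinearEquiv.refl R Y⟩⟩
  | n + 1, _, _, _, _, ι, π, ⟨Z, Q, j, p, h1, h2, h3, h4, h5, h6⟩, hfin, hproj, hι, hπ, hex =>
    ⟨Z, Q, j, p, h1, h2, h3, h4, h5, IsSyzygy.succ n ι π h6 hfin hproj hι hπ hex⟩

theorem IsSyzygy.finite [IsNoetherianRing R] : ∀ (n : ℕ) {M X : ModuleCat.{u} R},
    Module.Finite R M → IsSyzygy n M X → Module.Finite R X
  | 0, _, _, _, ⟨e⟩ => Module.Finite.equiv e.symm
  | n + 1, _, _, _, ⟨_, _, j, _, h1, _, h3, _, _, h6⟩ =>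
    IsSyzygy.finite n (finite_of_injective_finite j h3) h6

theorem exists_good_chain [IsNoetherianRing R] (M : ModuleCat.{u} R) [Module.Finite R M]
    (hR : ∀ i, EV R M R (i + 1)) (hM : ∀ i, EV R M M (i + 1)) (hp : ¬ Module.Projective R M) :
    ∃ X : ℕ → ModuleCat.{u} R, Good X ∧ ∀ a, IsSyzygy (a + 1) M (X a) := by
  have step : ∀ X : {X : ModuleCat.{u} R // Module.Finite R X},
      ∃ (Y : {Y : ModuleCat.{u} R // Module.Finite R Y}) (P : ModuleCat.{u} R)
        (ι : Y.1 →ₗ[R] P) (π : P →ₗ[R] X.1),
        Module.Finite R P ∧ Module.Projective R P ∧ Function.Injective ι ∧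
          Function.Surjective π ∧ Function.Exact ι π := by
    rintro ⟨X, hX⟩
    obtain ⟨r, q, hq⟩ := Module.Finite.exists_fin' R X
    exact ⟨⟨ModuleCat.of R (LinearMap.ker q),
        finite_of_injective_finite (LinearMap.ker q).subtype (Submodule.subtype_injective _)⟩,
      ModuleCat.of R (Fin r → R), (LinearMap.ker q).subtype, q,
      inferInstanceAs (Module.Finite R (Fin r → R)),
      inferInstanceAs (Module.Projective R (Fin r → R)), Submodule.subtype_injective _, hq,
      LinearMap.exact_subtype_ker_map q⟩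
  choose nx np nι nπ hfin hproj hι hπ hex using step
  let z : ℕ → {X : ModuleCat.{u} R // Module.Finite R X} :=
    fun a => Nat.rec ⟨M, inferInstance⟩ (fun _ o => nx o) a
  have hs : ∀ a, IsSyzygy a M (z a).1 := by
    intro a
    induction a with
    | zero => exact ⟨LinearEquiv.refl R M⟩
    | succ a ih =>
      exact IsSyzygy.succ a (nι (z a)) (nπ (z a)) ih (hfin _) (hproj _) (hι _) (hπ _) (hex _)
  have hzR : ∀ a i, EV R (z a).1 R (i + 1) := by
    intro a
    induction a with
    | zero => exact hR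
    | succ a ih =>
      exact fun i =>
        have := hproj (z a)
        ev_shift (hι (z a)) (hπ (z a)) (hex (z a)) i (ih (i + 1))
  have hzz : ∀ a i, EV R (z a).1 (z a).1 (i + 1) := by
    intro a
    induction a with
    | zero => exact hM
    | succ a ih =>
      intro i
      have := hfin (z a)
      have := hproj (z a)
      exact ev_shift (hι (z a)) (hπ (z a)) (hex (z a)) i
        (ev_cov (hι (z a)) (hπ (z a)) (hex (z a)) (i + 1) (ih i)
          (ev_of_finite_projective (i + 2) (hzR a (i + 1))))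
  have hcross : ∀ d b i, EV R (z (b + d)).1 (z b).1 (i + 1) := by
    intro d
    induction d with
    | zero => exact fun b i => hzz b i
    | succ d ih =>
      exact fun b i =>
        have := hproj (z (b + d))
        ev_shift (hι (z (b + d))) (hπ (z (b + d))) (hex (z (b + d))) i (ih b (i + 1))
  have hnp : ∀ a, ¬ Module.Projective R (z a).1 := by
    intro a
    induction a with
    | zero => exact hp
    | succ a ih =>
      have := hfin (z a)
      have := hproj (z a)
      have := (nx (z a)).2
      exact not_projective_syzygy (hι (z a)) (hπ (z a)) (hex (z a)) (hzR a 0) ih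
  refine ⟨fun a => (z (a + 1)).1, ⟨fun a => (z (a + 1)).2, ?_, fun a => hzR (a + 1), ?_,
    fun a => hnp (a + 1)⟩, fun a => hs (a + 1)⟩
  · intro a b hab
    obtain ⟨d, rfl⟩ := Nat.exists_eq_add_of_le hab
    rw [show b + d + 1 = b + 1 + d by omega]
    exact hcross d (b + 1)
  · intro a b hab f
    obtain ⟨d, rfl⟩ := Nat.exists_eq_add_of_le (show b + 1 ≤ a by omega)
    obtain ⟨F, hF⟩ := ev_extend (hι (z (b + 1 + d))) (hπ (z (b + 1 + d))) (hex (z (b + 1 + d)))
      (hcross d (b + 1) 0) f
    have := hfin (z (b + 1 + d))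
    have := hproj (z (b + 1 + d))
    rw [← hF]
    exact fac_through _ F

end Vale.Agent.P195
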