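import Vale.Agent.P195.Main

/-!
Every finitely generated module over an Artin algebra with radical cube zero that has no
self-extensions and no extensions by the algebra, up to an explicit degree, is projective.
-/

universe u v

open CategoryTheory CategoryTheory.Abelian

namespace Vale.Agent.P195.RadicalCubeZero

theorem result (k : Type v) [CommRing k] [IsArtinianRing k] (R : Type u) [Ring R]
    [Algebra k R] [Module.Finite k R]
    (hrad : ∀ a ∈ Ring.jacobson R, ∀ b ∈ Ring.jacobson R, ∀ c ∈ Ring.jacobson R, a * b * c = 0)
    (M : ModuleCat.{u} R) [Module.Finite R M]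
    (hR : ∀ i : ℕ, 1 ≤ i → i ≤ 2 * (Module.length R (R ⧸ Ring.jacobson R)).toNat + 2 →
      Subsingleton (Ext M (ModuleCat.of R R) i))
    (hM : ∀ i : ℕ, 1 ≤ i → i ≤ 2 * (Module.length R (R ⧸ Ring.jacobson R)).toNat + 1 →
      Subsingleton (Ext M M i)) :
    Module.Projective R M :=
  Vale.Agent.P195.projective_of_ev k R hrad M hR hM

end Vale.Agent.P195.RadicalCubeZero
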