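import Vale.Agent.P195.Window

/-!
Dualising a resolution: a window of right modules with the vanishing properties of syzygies of a
nonprojective self-orthogonal module.
-/

universe u

open MulOpposite CategoryTheory CategoryTheory.Abelian

namespace Vale.Agent.P195

variable {R : Type u} [Ring R]

/-- The dual of a finitely generated free left module is free. -/
noncomputable def dualFreeEquiv (n : ℕ) : ((Fin n → R) →ₗ[R] R) ≃ₗ[Rᵐᵒᵖ] (Fin n → Rᵐᵒᵖ) where
  toFun φ i := op (φ (Pi.single i 1))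
  map_add' φ ψ := by ext i; simp
  map_smul' c φ := by ext i; simp
  invFun v := ∑ i, (LinearMap.toSpanSingleton R R (unop (v i))).comp (LinearMap.proj i)
  left_inv φ := by
    refine LinearMap.pi_ext' fun j => LinearMap.ext_ring ?_
    simp [Pi.single_apply]
  right_inv v := by
    ext i
    simp [Pi.single_apply]

theorem proj_expand (n : ℕ) (φ : (Fin n → R) →ₗ[R] R) :
    φ = ∑ i, (op (φ (Pi.single i 1))) • (LinearMap.proj i : (Fin n → R) →ₗ[R] R) := by
  refine LinearMap.pi_ext' fun j => LinearMap.ext_ring ?_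
  simp [Pi.single_apply]

/-- Precomposition, linear over the opposite ring. -/
def dualMap {X Y : Type u} [AddCommGroup X] [Module R X] [AddCommGroup Y] [Module R Y]
    (f : X →ₗ[R] Y) : (Y →ₗ[R] R) →ₗ[Rᵐᵒᵖ] (X →ₗ[R] R) where
  toFun φ := φ.comp f
  map_add' φ ψ := LinearMap.add_comp f ψ φ
  map_smul' c φ := LinearMap.smul_comp c φ f

/-- Evaluation at an element, linear over the opposite ring. -/
def evalOp {X : Type u} [AddCommGroup X] [Module R X] (x : X) :
    (X →ₗ[R] R) →ₗ[Rᵐᵒᵖ] Rᵐᵒᵖ where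
  toFun φ := op (φ x)
  map_add' φ ψ := rfl
  map_smul' c φ := rfl

theorem eq_evalOp {n : ℕ} (ψ : ((Fin n → R) →ₗ[R] R) →ₗ[Rᵐᵒᵖ] Rᵐᵒᵖ) :
    ∃ x, ψ = evalOp x := by
  refine ⟨fun i => unop (ψ (LinearMap.proj i)), LinearMap.ext fun φ => ?_⟩
  conv_lhs => rw [proj_expand n φ]
  rw [map_sum]
  simp only [map_smul]
  show _ = op (φ _)
  conv_rhs => rw [pi_eq_sum_univ' (fun i => unop (ψ (LinearMap.proj i))), map_sum]
  rw [Finset.op_sum]
  refine Finset.sum_congr rfl fun i _ => ?_
  rw [map_smul, smul_eq_mul, smul_eq_mul, op_mul, op_unop]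

theorem eq_dualMap {m n : ℕ} (ψ : ((Fin n → R) →ₗ[R] R) →ₗ[Rᵐᵒᵖ] ((Fin m → R) →ₗ[R] R)) :
    ∃ g : (Fin m → R) →ₗ[R] (Fin n → R), ψ = dualMap g := by
  refine ⟨LinearMap.pi fun i => ψ (LinearMap.proj i), LinearMap.ext fun φ => LinearMap.ext fun v => ?_⟩
  conv_lhs => rw [proj_expand n φ]
  show _ = φ _
  rw [pi_eq_sum_univ' (LinearMap.pi (fun i => ψ (LinearMap.proj i)) v), map_sum, map_sum]
  simp only [map_smul, LinearMap.sum_apply, LinearMap.smul_apply, LinearMap.pi_apply,
    smul_eq_mul, op_smul_eq_mul]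

section

variable (z : ℕ → ModuleCat.{u} R) (n : ℕ → ℕ) (ι : ∀ a, z (a + 1) →ₗ[R] (Fin (n a) → R))
  (π : ∀ a, (Fin (n a) → R) →ₗ[R] z a)

/-- The differential of the resolution. -/
def diff (j : ℕ) : (Fin (n (j + 1)) → R) →ₗ[R] (Fin (n j) → R) := (ι j).comp (π (j + 1))

/-- The image of the dual differential. -/
noncomputable def coSyz (j : ℕ) : ModuleCat.{u} Rᵐᵒᵖ :=
  ModuleCat.of Rᵐᵒᵖ (LinearMap.range (dualMap (diff z n ι π j)))

/-- The projection to the image of the dual differential. -/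
noncomputable def coPi (j : ℕ) : ((Fin (n j) → R) →ₗ[R] R) →ₗ[Rᵐᵒᵖ] coSyz z n ι π j :=
  (dualMap (diff z n ι π j)).rangeRestrict

/-- The inclusion of the image of the dual differential. -/
noncomputable def coInc (j : ℕ) : coSyz z n ι π j →ₗ[Rᵐᵒᵖ] ((Fin (n (j + 1)) → R) →ₗ[R] R) :=
  (LinearMap.range (dualMap (diff z n ι π j))).subtype

theorem exists_win_transpose (N : ℕ) [IsNoetherianRing Rᵐᵒᵖ]
    (hι : ∀ a, Function.Injective (ι a)) (hπ : ∀ a, Function.Surjective (π a))
    (hex : ∀ a, Function.Exact (ι a) (π a)) (hzfin : ∀ a, Module.Finite R (z a))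
    (hzR : ∀ a, a ≤ 2 * N + 4 → EV R (z a) R 1)
    (hfac : ∀ a b, 1 ≤ a → a < b → b ≤ N + 1 → ∀ f : z b →ₗ[R] z a, Fac R f)
    (hnp : ∀ a, a ≤ N + 2 → ¬ Module.Projective R (z a)) :
    Win N (fun c => coSyz z n ι π (N + 1 - c)) := by
  have hfree : ∀ j, Module.Finite Rᵐᵒᵖ ((Fin (n j) → R) →ₗ[R] R) ∧
      Module.Projective Rᵐᵒᵖ ((Fin (n j) → R) →ₗ[R] R) := fun j =>
    ⟨Module.Finite.equiv (dualFreeEquiv (n j)).symm,
      Module.Projective.of_equiv (dualFreeEquiv (n j)).symm⟩
  have hfinC : ∀ j, Module.Finite Rᵐᵒᵖ (coSyz z n ι π j) := fun j =>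
    have := (hfree j).1
    Module.Finite.of_surjective (coPi z n ι π j) (LinearMap.surjective_rangeRestrict _)
  have hinj : ∀ j, Function.Injective (coInc z n ι π j) := fun j => Submodule.subtype_injective _
  have hsurj : ∀ j, Function.Surjective (coPi z n ι π j) := fun j =>
    LinearMap.surjective_rangeRestrict _
  have hcomp : ∀ j x, coInc z n ι π j (coPi z n ι π j x) = x.comp (diff z n ι π j) :=
    fun j x => rfl
  -- the dual sequences are exact
  have hCex : ∀ j, j ≤ N + 1 → Function.Exact (coInc z n ι π j) (coPi z n ι π (j + 1)) := by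
    intro j hj φ
    constructor
    · intro hφ
      have h1 : φ.comp (diff z n ι π (j + 1)) = 0 := congrArg Subtype.val hφ
      have hker : LinearMap.ker (π (j + 1)) ≤ LinearMap.ker φ := by
        intro x hx
        obtain ⟨y, rfl⟩ := (hex (j + 1) x).1 hx
        obtain ⟨w, rfl⟩ := hπ (j + 1 + 1) y
        exact LinearMap.congr_fun h1 w
      let φ' : z (j + 1) →ₗ[R] R := ((LinearMap.ker (π (j + 1))).liftQ φ hker).comp
        ((π (j + 1)).quotKerEquivOfSurjective (hπ (j + 1))).symm.toLinearMap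
      have hφ' : φ'.comp (π (j + 1)) = φ := by
        refine LinearMap.ext fun x => ?_
        have : ((π (j + 1)).quotKerEquivOfSurjective (hπ (j + 1))).symm (π (j + 1) x)
            = Submodule.Quotient.mk x := (LinearEquiv.symm_apply_eq _).2 rfl
        simp [φ', this]
      obtain ⟨F, hF⟩ := ev_extend (hι j) (hπ j) (hex j) (hzR j (by omega)) φ'
      refine ⟨coPi z n ι π j F, ?_⟩
      rw [hcomp, ← hφ', ← hF]
      rfl
    · rintro ⟨c, rfl⟩
      obtain ⟨x, rfl⟩ := hsurj j c
      apply Subtype.ext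
      show (x.comp (diff z n ι π j)).comp (diff z n ι π (j + 1)) = 0
      ext w
      simp [diff, (hex (j + 1)).apply_apply_eq_zero]
  -- maps to the ring extend
  have hC1 : ∀ j, j ≤ N → EV Rᵐᵒᵖ (coSyz z n ι π (j + 2)) Rᵐᵒᵖ 1 := by
    intro j hj
    have := (hfree (j + 2)).2
    refine ev_one_of_extend (hinj (j + 1)) (hsurj (j + 2)) (hCex (j + 1) (by omega)) fun f => ?_
    obtain ⟨x, hx⟩ := eq_evalOp (f.comp (coPi z n ι π (j + 1)))
    have hzero : π (j + 1) x = 0 := by
      apply hι j
      rw [map_zero]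
      funext i
      let φ : (Fin (n (j + 1)) → R) →ₗ[R] R := (LinearMap.proj i).comp (diff z n ι π j)
      have hk : coPi z n ι π (j + 1) φ = 0 := by
        apply Subtype.ext
        show φ.comp (diff z n ι π (j + 1)) = 0
        ext w
        simp [φ, diff, (hex (j + 1)).apply_apply_eq_zero]
      have h2 : op (φ x) = f (coPi z n ι π (j + 1) φ) := (LinearMap.congr_fun hx φ).symm
      rw [hk, map_zero] at h2
      exact op_injective h2
    obtain ⟨y, hy⟩ := (hex (j + 1) x).1 hzero
    obtain ⟨w, rfl⟩ := hπ (j + 2) y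
    refine ⟨evalOp w, LinearMap.ext fun c => ?_⟩
    obtain ⟨v, rfl⟩ := hsurj (j + 1) c
    refine Eq.trans ?_ (LinearMap.congr_fun hx v).symm
    show op (v (diff z n ι π (j + 1) w)) = op (v x)
    rw [← hy]
    rfl
  have hCR : ∀ i j, i + j ≤ N → EV Rᵐᵒᵖ (coSyz z n ι π (i + j + 2)) Rᵐᵒᵖ (i + 1) := by
    intro i
    induction i with
    | zero => exact fun j hj => by rw [zero_add]; exact hC1 j (by omega)
    | succ i ih =>
      intro j hj
      rw [show i + 1 + j + 2 = i + j + 2 + 1 by omega]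
      have := (hfree (i + j + 2 + 1)).2
      exact ev_unshift (hinj _) (hsurj _) (hCex _ (by omega)) i (ih j (by omega))
  -- maps between different members factor
  have hCfac : ∀ a b, 1 ≤ a → a < b → b ≤ N + 1 →
      ∀ φ : coSyz z n ι π a →ₗ[Rᵐᵒᵖ] coSyz z n ι π b, Fac Rᵐᵒᵖ φ := by
    intro a b ha hab hb φ
    have := (hfree a).2
    obtain ⟨ψ, hψ⟩ := Module.projective_lifting_property (coPi z n ι π b)
      (φ.comp (coPi z n ι π a)) (hsurj b)
    obtain ⟨g, rfl⟩ := eq_dualMap ψ
    obtain ⟨a, rfl⟩ : ∃ a', a = a' + 1 := ⟨a - 1, by omega⟩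
    have hker : LinearMap.ker (π b) ≤ LinearMap.ker ((π (a + 1)).comp g) := by
      intro v hv
      obtain ⟨y, rfl⟩ := (hex b v).1 hv
      obtain ⟨w, rfl⟩ := hπ (b + 1) y
      rw [LinearMap.mem_ker]
      apply hι a
      rw [map_zero]
      funext i
      let x : (Fin (n (a + 1)) → R) →ₗ[R] R := (LinearMap.proj i).comp (diff z n ι π a)
      have hk : coPi z n ι π (a + 1) x = 0 := by
        apply Subtype.ext
        show x.comp (diff z n ι π (a + 1)) = 0
        ext w
        simp [x, diff, (hex (a + 1)).apply_apply_eq_zero]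
      have h1 : coPi z n ι π b (x.comp g) = φ (coPi z n ι π (a + 1) x) := LinearMap.congr_fun hψ x
      rw [hk, map_zero] at h1
      exact LinearMap.congr_fun (congrArg Subtype.val h1) w
    let h : z b →ₗ[R] z (a + 1) := ((LinearMap.ker (π b)).liftQ _ hker).comp
      ((π b).quotKerEquivOfSurjective (hπ b)).symm.toLinearMap
    have hh : ∀ v, h (π b v) = π (a + 1) (g v) := fun v => by
      have : ((π b).quotKerEquivOfSurjective (hπ b)).symm (π b v) = Submodule.Quotient.mk v :=
        (LinearEquiv.symm_apply_eq _).2 rfl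
      simp [h, this]
    obtain ⟨r, p, q, hpq⟩ := hfac (a + 1) b (by omega) hab hb h
    obtain ⟨q', hq'⟩ := Module.projective_lifting_property (π (a + 1)) q (hπ (a + 1))
    let D : (Fin (n b) → R) →ₗ[R] (Fin (n (a + 1)) → R) := g - q'.comp (p.comp (π b))
    have hD : ∀ v, D v ∈ LinearMap.range (diff z n ι π (a + 1)) := fun v => by
      have h0 : π (a + 1) (D v) = 0 := by
        have h1 : π (a + 1) (q' (p (π b v))) = q (p (π b v)) := LinearMap.congr_fun hq' _
        have h2 : h (π b v) = q (p (π b v)) := LinearMap.congr_fun hpq _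
        simp only [D, LinearMap.sub_apply, LinearMap.comp_apply, map_sub]
        rw [h1, ← h2, hh, sub_self]
      obtain ⟨y, hy⟩ := (hex (a + 1) (D v)).1 h0
      obtain ⟨w, rfl⟩ := hπ (a + 1 + 1) y
      exact ⟨w, hy⟩
    obtain ⟨K, hK⟩ := Module.projective_lifting_property
      (diff z n ι π (a + 1)).rangeRestrict (D.codRestrict _ hD)
      (LinearMap.surjective_rangeRestrict _)
    have key : φ = ((coPi z n ι π b).comp (dualMap K)).comp (coInc z n ι π (a + 1)) := by
      refine LinearMap.ext fun c => ?_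
      obtain ⟨x, rfl⟩ := hsurj (a + 1) c
      refine (LinearMap.congr_fun hψ x).symm.trans ?_
      apply Subtype.ext
      show (x.comp g).comp (diff z n ι π b)
        = ((x.comp (diff z n ι π (a + 1))).comp K).comp (diff z n ι π b)
      refine LinearMap.ext fun w => ?_
      have hKv : diff z n ι π (a + 1) (K (diff z n ι π b w)) = D (diff z n ι π b w) :=
        congrArg Subtype.val (LinearMap.congr_fun hK (diff z n ι π b w))
      have h0 : π b (diff z n ι π b w) = 0 := (hex b).apply_apply_eq_zero _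
      show x (g (diff z n ι π b w)) = x (diff z n ι π (a + 1) (K (diff z n ι π b w)))
      rw [hKv]
      simp [D, h0]
    rw [key]
    have := (hfree (a + 1 + 1)).1
    have := (hfree (a + 1 + 1)).2
    exact fac_through _ _
  -- no member is projective
  have hCnp : ∀ j, j + 1 ≤ N + 1 → ¬ Module.Projective Rᵐᵒᵖ (coSyz z n ι π (j + 1)) := by
    intro j hj hproj
    obtain ⟨s, hs⟩ := Module.projective_lifting_property (coPi z n ι π (j + 1)) LinearMap.id
      (hsurj (j + 1))
    have := (hfree (j + 1)).1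
    have := (hfree (j + 1)).2
    obtain ⟨S, hS⟩ := ev_extend (hinj (j + 1)) (hsurj (j + 2)) (hCex (j + 1) hj)
      (ev_of_finite_projective 1 (hC1 j (by omega))) s
    obtain ⟨T, rfl⟩ := eq_dualMap S
    have hT : ∀ v, diff z n ι π (j + 1) (T (diff z n ι π (j + 1) v))
        = diff z n ι π (j + 1) v := by
      intro v
      funext i
      have h1 := congrArg Subtype.val
        (LinearMap.congr_fun hs (coPi z n ι π (j + 1) (LinearMap.proj i)))
      have h2 := LinearMap.congr_fun hS (coPi z n ι π (j + 1) (LinearMap.proj i))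
      rw [LinearMap.comp_apply, ← h2] at h1
      exact LinearMap.congr_fun h1 v
    let e : (Fin (n (j + 1)) → R) →ₗ[R] z (j + 1 + 1) := (π (j + 1 + 1)).comp T
    have he : e.comp (ι (j + 1)) = LinearMap.id := by
      refine LinearMap.ext fun y => ?_
      obtain ⟨v, rfl⟩ := hπ (j + 1 + 1) y
      exact hι (j + 1) (hT v)
    exact hnp (j + 1 + 1) (by omega) (Module.Projective.of_split (ι (j + 1)) e he)
  refine ⟨fun c => hfinC _, ?_, ?_, ?_, ?_⟩
  · intro c d hdc hc
    obtain ⟨a, ha⟩ : ∃ a, N + 1 - c = a + 2 := ⟨N - 1 - c, by omega⟩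
    rw [ha]
    have := (hfree (a + 2)).2
    refine ev_one_of_extend (hinj (a + 1)) (hsurj (a + 2)) (hCex (a + 1) (by omega)) fun f => ?_
    exact extend_of_fac (fun r f' => ev_extend (hinj (a + 1)) (hsurj (a + 2))
      (hCex (a + 1) (by omega)) (ev_of_finite_projective 1 (hC1 a (by omega))) f')
      (hCfac (a + 1) (N + 1 - d) (by omega) (by omega) (by omega) f)
  · intro c i hci
    rw [show N + 1 - c = i + (N - 1 - c - i) + 2 by omega]
    exact hCR i _ (by omega)
  · intro c d hdc hc f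
    exact hCfac (N + 1 - c) (N + 1 - d) (by omega) (by omega) (by omega) f
  · intro c hc
    rw [show N + 1 - c = N - c + 1 by omega]
    exact hCnp (N - c) (by omega)

end

end Vale.Agent.P195
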