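import Vale.Agent.P195.Good

/-!
Finite windows of modules with the vanishing properties of syzygies of a self-orthogonal module,
needed only in finitely many degrees.
-/

universe u

open CategoryTheory CategoryTheory.Abelian

namespace Vale.Agent.P195

variable {R : Type u} [Ring R]

section

variable {K P X Y : Type u} [AddCommGroup K] [Module R K] [AddCommGroup P] [Module R P]
  [AddCommGroup X] [Module R X] [AddCommGroup Y] [Module R Y]
variable {ι : K →ₗ[R] P} {π : P →ₗ[R] X}

theorem ev_unshift [Module.Projective R P] (hι : Function.Injective ι)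
    (hπ : Function.Surjective π) (hex : Function.Exact ι π) (i : ℕ) (h : EV R K Y (i + 1)) :
    EV R X Y (i + 2) := by
  refine subsingleton_of_forall_eq 0 fun x => ?_
  have hP : Projective (ModuleCat.shortComplexOfCompEqZero ι π hex.linearMap_comp_eq_zero).X₂ :=
    (IsProjective.iff_projective P).1 inferInstance
  obtain ⟨x₁, hx₁⟩ := Ext.contravariant_sequence_exact₃ (ses hι hπ hex) (ModuleCat.of R Y) x
    (Ext.eq_zero_of_projective (n := i + 1) _) (n₀ := i + 1) (by omega)
  have h0 : x₁ = 0 := h.elim _ _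
  rw [← hx₁, h0, Ext.comp_zero]

theorem ev_one_of_extend [Module.Projective R P] (hι : Function.Injective ι)
    (hπ : Function.Surjective π) (hex : Function.Exact ι π)
    (h : ∀ f : K →ₗ[R] Y, ∃ F : P →ₗ[R] Y, F.comp ι = f) : EV R X Y 1 := by
  refine subsingleton_of_forall_eq 0 fun x => ?_
  have hP : Projective (ModuleCat.shortComplexOfCompEqZero ι π hex.linearMap_comp_eq_zero).X₂ :=
    (IsProjective.iff_projective P).1 inferInstance
  obtain ⟨x₁, hx₁⟩ := Ext.contravariant_sequence_exact₃ (ses hι hπ hex) (ModuleCat.of R Y) x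
    (Ext.eq_zero_of_projective (n := 0) _) (n₀ := 0) rfl
  obtain ⟨f, rfl⟩ := (Ext.mk₀_bijective _ _).2 x₁
  obtain ⟨F, hF⟩ := h f.hom
  have hf : f = (ModuleCat.shortComplexOfCompEqZero ι π hex.linearMap_comp_eq_zero).f ≫
      ModuleCat.ofHom F := by
    ext1
    exact hF.symm
  rw [← hx₁, hf, ← Ext.mk₀_comp_mk₀, ShortComplex.ShortExact.extClass_comp_assoc]

theorem extend_of_fac
    (h : ∀ (r : ℕ) (f : K →ₗ[R] (Fin r → R)), ∃ F : P →ₗ[R] (Fin r → R), F.comp ι = f)
    {f : K →ₗ[R] Y} (hf : Fac R f) : ∃ F : P →ₗ[R] Y, F.comp ι = f := by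
  obtain ⟨r, p, q, rfl⟩ := hf
  obtain ⟨p', rfl⟩ := h r p
  exact ⟨q.comp p', LinearMap.comp_assoc ι p' q⟩

end

/-- A window of length `N` in a sequence of modules with the vanishing properties of the syzygies
of a nonprojective self-orthogonal module. -/
structure Win (N : ℕ) (Z : ℕ → ModuleCat.{u} R) : Prop where
  finite : ∀ c, Module.Finite R (Z c)
  ext1 : ∀ c d, d ≤ c → c < N → EV R (Z c) (Z d) 1
  extR : ∀ c i, c + i < N → EV R (Z c) R (i + 1)
  fac : ∀ c d, d < c → c ≤ N → ∀ f : Z c →ₗ[R] Z d, Fac R f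
  notProjective : ∀ c, c ≤ N → ¬ Module.Projective R (Z c)

theorem Win.presented [IsNoetherianRing R] {N : ℕ} {X Y P : ℕ → ModuleCat.{u} R}
    (h : Win (N + 1) X) (ι : ∀ a, Y a →ₗ[R] P a) (π : ∀ a, P a →ₗ[R] X a)
    (hfin : ∀ a, Module.Finite R (P a)) (hproj : ∀ a, Module.Projective R (P a))
    (hι : ∀ a, Function.Injective (ι a)) (hπ : ∀ a, Function.Surjective (π a))
    (hex : ∀ a, Function.Exact (ι a) (π a)) : Win N Y where
  finite a := finite_of_injective_finite (ι a) (hι a)
  ext1 a b hab ha := ev_shift (hι a) (hπ a) (hex a) 0 (ev_cov (hι b) (hπ b) (hex b) 1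
    (h.ext1 a b hab (by omega)) (ev_of_finite_projective 2 (h.extR a 1 (by omega))))
  extR a i hai := ev_shift (hι a) (hπ a) (hex a) i (h.extR a (i + 1) (by omega))
  fac a b hab ha f := fac_syzygy (hι a) (hπ a) (hex a) (hι b) (hπ b) (hex b)
    (h.extR a 0 (by omega)) (h.fac a b hab (by omega)) f
  notProjective a ha :=
    have := finite_of_injective_finite (ι a) (hι a)
    not_projective_syzygy (hι a) (hπ a) (hex a) (h.extR a 0 (by omega))
      (h.notProjective a (by omega))

theorem Win.of_iso {N : ℕ} {X Y : ℕ → ModuleCat.{u} R} (h : Win N X)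
    (e : ∀ a, Y a ≃ₗ[R] X a) : Win N Y where
  finite a := have := h.finite a; Module.Finite.equiv (e a).symm
  ext1 a b hab ha := ev_congr (e a) (e b) (h.ext1 a b hab ha)
  extR a i hai := ev_congr (e a) (LinearEquiv.refl R R) (h.extR a i hai)
  fac a b hab ha f := by
    have h1 := ((h.fac a b hab ha ((e b).toLinearMap.comp
      (f.comp (e a).symm.toLinearMap))).comp_left (e b).symm.toLinearMap).comp_right
        (e a).toLinearMap
    convert h1 using 1
    ext x
    simp
  notProjective a ha hp := h.notProjective a ha (Module.Projective.of_equiv (e a))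

theorem Win.syzygy [IsNoetherianRing R] : ∀ (n : ℕ) {N : ℕ} {X K : ℕ → ModuleCat.{u} R},
    Win (N + n) X → (∀ a, IsSyzygy n (X a) (K a)) → Win N K
  | 0, _, _, _, h, hK => h.of_iso fun a => (hK a).some
  | n + 1, N, _, _, h, hK => by
    choose Y P ι π hfin hproj hι hπ hex hY using hK
    exact Win.syzygy n (Win.presented (N := N + n) h ι π hfin hproj hι hπ hex) hY

theorem win_of_chain [IsNoetherianRing R] (N : ℕ) (z P : ℕ → ModuleCat.{u} R)
    (ι : ∀ a, z (a + 1) →ₗ[R] P a) (π : ∀ a, P a →ₗ[R] z a)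
    (hfz : ∀ a, Module.Finite R (z a)) (hfin : ∀ a, Module.Finite R (P a))
    (hproj : ∀ a, Module.Projective R (P a)) (hι : ∀ a, Function.Injective (ι a))
    (hπ : ∀ a, Function.Surjective (π a)) (hex : ∀ a, Function.Exact (ι a) (π a))
    (hR : ∀ i, i ≤ 2 * N + 2 → EV R (z 0) R (i + 1))
    (hM : ∀ i, i ≤ 2 * N + 2 → EV R (z 0) (z 0) (i + 1))
    (hp : ¬ Module.Projective R (z 0)) :
    Win N (fun a => z (a + 1)) ∧ ∀ a, a ≤ 2 * N + 2 → EV R (z a) R 1 := by
  have hzR : ∀ a i, a + i ≤ 2 * N + 2 → EV R (z a) R (i + 1) := by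
    intro a
    induction a with
    | zero => exact fun i hi => hR i (by omega)
    | succ a ih =>
      exact fun i hi =>
        have := hproj a
        ev_shift (hι a) (hπ a) (hex a) i (ih (i + 1) (by omega))
  have hzz : ∀ a i, a + i ≤ 2 * N + 1 → EV R (z a) (z a) (i + 1) := by
    intro a
    induction a with
    | zero => exact fun i hi => hM i (by omega)
    | succ a ih =>
      intro i hi
      have := hfin a
      have := hproj a
      exact ev_shift (hι a) (hπ a) (hex a) i
        (ev_cov (hι a) (hπ a) (hex a) (i + 1) (ih i (by omega))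
          (ev_of_finite_projective (i + 2) (hzR a (i + 1) (by omega))))
  have hcross : ∀ d b i, b + d + i ≤ 2 * N + 1 → EV R (z (b + d)) (z b) (i + 1) := by
    intro d
    induction d with
    | zero => exact fun b i hi => hzz b i (by omega)
    | succ d ih =>
      exact fun b i hi =>
        have := hproj (b + d)
        ev_shift (hι (b + d)) (hπ (b + d)) (hex (b + d)) i (ih b (i + 1) (by omega))
  have hnp : ∀ a, a ≤ 2 * N + 2 → ¬ Module.Projective R (z a) := by
    intro a
    induction a with
    | zero => exact fun _ => hp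
    | succ a ih =>
      intro ha
      have := hfin a
      have := hproj a
      have := hfz (a + 1)
      exact not_projective_syzygy (hι a) (hπ a) (hex a) (hzR a 0 (by omega)) (ih (by omega))
  refine ⟨⟨fun a => hfz (a + 1), ?_, fun a i hai => hzR (a + 1) i (by omega), ?_,
    fun a ha => hnp (a + 1) (by omega)⟩, fun a ha => hzR a 0 (by omega)⟩
  · intro a b hab ha
    obtain ⟨d, rfl⟩ := Nat.exists_eq_add_of_le hab
    rw [show b + d + 1 = b + 1 + d by omega]
    exact hcross d (b + 1) 0 (by omega)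
  · intro a b hab ha f
    obtain ⟨d, rfl⟩ := Nat.exists_eq_add_of_le (show b + 1 ≤ a by omega)
    obtain ⟨F, hF⟩ := ev_extend (hι (b + 1 + d)) (hπ (b + 1 + d)) (hex (b + 1 + d))
      (hcross d (b + 1) 0 (by omega)) f
    have := hfin (b + 1 + d)
    have := hproj (b + 1 + d)
    rw [← hF]
    exact fac_through _ F

/-- A free resolution, recorded through its syzygies. -/
theorem exists_free_chain [IsNoetherianRing R] (M : ModuleCat.{u} R) [Module.Finite R M] :
    ∃ (z : ℕ → ModuleCat.{u} R) (n : ℕ → ℕ) (ι : ∀ a, z (a + 1) →ₗ[R] (Fin (n a) → R))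
      (π : ∀ a, (Fin (n a) → R) →ₗ[R] z a), z 0 = M ∧ (∀ a, IsSyzygy a M (z a)) ∧
        (∀ a, Module.Finite R (z a)) ∧ ∀ a, Function.Injective (ι a) ∧
          Function.Surjective (π a) ∧ Function.Exact (ι a) (π a) := by
  have step : ∀ X : {X : ModuleCat.{u} R // Module.Finite R X},
      ∃ (Y : {Y : ModuleCat.{u} R // Module.Finite R Y}) (r : ℕ)
        (ι : Y.1 →ₗ[R] (Fin r → R)) (π : (Fin r → R) →ₗ[R] X.1),
        Function.Injective ι ∧ Function.Surjective π ∧ Function.Exact ι π := by
    rintro ⟨X, hX⟩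
    obtain ⟨r, q, hq⟩ := Module.Finite.exists_fin' R X
    exact ⟨⟨ModuleCat.of R (LinearMap.ker q),
        finite_of_injective_finite (LinearMap.ker q).subtype (Submodule.subtype_injective _)⟩,
      r, (LinearMap.ker q).subtype, q, Submodule.subtype_injective _, hq,
      LinearMap.exact_subtype_ker_map q⟩
  choose nx np nι nπ hι hπ hex using step
  let z : ℕ → {X : ModuleCat.{u} R // Module.Finite R X} :=
    fun a => Nat.rec ⟨M, inferInstance⟩ (fun _ o => nx o) a
  have hs : ∀ a, IsSyzygy a M (z a).1 := by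
    intro a
    induction a with
    | zero => exact ⟨LinearEquiv.refl R M⟩
    | succ a ih =>
      exact IsSyzygy.succ (P := ModuleCat.of R (Fin (np (z a)) → R)) a (nι (z a)) (nπ (z a)) ih
        (inferInstanceAs (Module.Finite R (Fin (np (z a)) → R)))
        (inferInstanceAs (Module.Projective R (Fin (np (z a)) → R))) (hι _) (hπ _) (hex _)
  exact ⟨fun a => (z a).1, fun a => np (z a), fun a => nι (z a), fun a => nπ (z a), rfl, hs,
    fun a => (z a).2, fun a => ⟨hι _, hπ _, hex _⟩⟩

end Vale.Agent.P195
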